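import Crest.Agent.N221.NC.Defs
import Crest.Agent.N221.NB.Cv

/-! Row 221, block NC, leaf `Cmp` (helper40): comparison of two nodes (N3). -/

set_option autoImplicit false

open Set Metric
open scoped ContDiff Topology

noncomputable section

namespace Crest.Agent.N221.NC

open NB

namespace CmpP

variable {E X V : Type} [NormedAddCommGroup E] [NormedSpace ℝ E] [NormedAddCommGroup X]
  [NormedSpace ℝ X] [NormedAddCommGroup V] [NormedSpace ℝ V]

theorem jet_id (y : E) {j : ℕ} (hj : 1 ≤ j) : ‖iteratedFDeriv ℝ j (fun x : E => x) y‖ ≤ 1 := by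
  obtain ⟨j, rfl⟩ := Nat.exists_eq_add_of_le' hj
  rw [← norm_iteratedFDeriv_fderiv, show fderiv ℝ (fun x : E => x) =
    fun _ => ContinuousLinearMap.id ℝ E from funext fun _ => fderiv_fun_id]
  rcases eq_or_ne j 0 with rfl | hk
  · rw [norm_iteratedFDeriv_zero]; exact ContinuousLinearMap.norm_id_le
  · rw [iteratedFDeriv_const_of_ne hk]; simp

/-- the image of an almost polynomial state under `f ∘ g`, `g` a linear contraction -/
theorem ap_comp {R ε : ℝ} {c : ℕ → ℝ} {N : ℕ} {z : ℝ → X}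
    (h : ∀ τ ∈ Icc (0 : ℝ) 1, z τ ∈ ball (0 : X) R ∧ ContDiffAt ℝ ∞ z τ ∧
      ∀ (V : Type) [NormedAddCommGroup V] [NormedSpace ℝ V] (Γ : X → V),
        ContDiffOn ℝ ∞ Γ (ball 0 R) →
        (∀ z ∈ ball (0 : X) R, ∀ j, 1 ≤ j → ‖iteratedFDeriv ℝ j Γ z‖ ≤ c j) →
        ‖iteratedDeriv N (fun τ => Γ (z τ)) τ‖ ≤ ε)
    (g : X →L[ℝ] E) (hg : ∀ w, ‖g w‖ ≤ ‖w‖) {f : E → V} (hf : ContDiffOn ℝ ∞ f (ball 0 R))
    (hj : ∀ y ∈ ball (0 : E) R, ∀ j, 1 ≤ j → ‖iteratedFDeriv ℝ j f y‖ ≤ c j) :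
    AP N ε fun τ => f (g (z τ)) := by
  have hm : ∀ w ∈ ball (0 : X) R, g w ∈ ball (0 : E) R := fun w hw =>
    mem_ball_zero_iff.2 ((hg w).trans_lt (mem_ball_zero_iff.1 hw))
  have hΓ : ContDiffOn ℝ ∞ (f ∘ g) (ball 0 R) := hf.comp g.contDiff.contDiffOn hm
  have g1 : ‖g‖ ≤ 1 := g.opNorm_le_bound zero_le_one fun w => by rw [one_mul]; exact hg w
  have ho : IsOpen (g ⁻¹' ball (0 : E) R) := isOpen_ball.preimage g.continuous
  refine ⟨fun τ hτ => (hΓ.contDiffAt (isOpen_ball.mem_nhds (h τ hτ).1)).comp τ (h τ hτ).2.1,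
    fun τ hτ => (h τ hτ).2.2 V (f ∘ g) hΓ fun w hw j j1 => ?_⟩
  rw [← iteratedFDerivWithin_of_isOpen j ho (hm w hw), g.iteratedFDerivWithin_comp_right hf
    isOpen_ball.uniqueDiffOn ho.uniqueDiffOn (hm w hw) (Ex.le_infty j),
    iteratedFDerivWithin_of_isOpen j isOpen_ball (hm w hw)]
  refine (ContinuousMultilinearMap.norm_compContinuousLinearMap_le _ _).trans ?_
  exact (mul_le_of_le_one_right (norm_nonneg _)
    (Finset.prod_le_one (fun _ _ => norm_nonneg _) fun _ _ => g1)).trans (hj _ (hm w hw) j j1)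

end CmpP

open CmpP

theorem cmpS (hA : ApS) (hK : KnS) : CmpS := by
  intro k hk s hs
  obtain ⟨μ, μ0, hA⟩ := hA k hk s hs
  obtain ⟨N, T0, hA⟩ := hA (μ + 2 * k.c1) k.c (by linarith [hk.c1])
  obtain ⟨C, hC, hK⟩ := hK k hk
  have K1 := hk.K
  have M0 : 0 ≤ (6 / k.τ0) ^ N := by have := hk.τ0; positivity
  refine ⟨(6 / k.τ0) ^ N * (k.K + C + 3) + 3, by nlinarith, T0, fun T hT E G _ _ _ _ _ ν Φ Φ' H Lf Lf'
    x x' A hx hx' hV hL S hS hS' => ?_⟩
  have T0 : (0 : ℝ) ≤ T := T.cast_nonneg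
  have S0 : (0 : ℝ) ≤ S := S.cast_nonneg
  have hST : S ≤ T := by
    have : (S : ℝ) ≤ T := hS'.trans (mul_le_of_le_one_left T0 hk.κ1)
    exact_mod_cast this
  have h1 := hA T hT E (ℝ × G) ν Φ Lf x A hx hV.tr S hS hST
  have h2 := hA T hT E ℝ ν Φ' Lf' x' (fun _ _ => 0) hx' ⟨fun _ _ _ => by simp, fun τ _ =>
    ⟨contDiffAt_const, fun j => by
      have := hk.d j
      rw [iteratedDeriv_const, ite_self, norm_zero]; positivity⟩⟩ S hS hST
  obtain ⟨k1, k2⟩ := hK T E G ν Φ Lf x A hx hV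
  have D0 : 0 < k.D T := Real.exp_pos _
  have D1 : k.D T ≤ 1 := Real.exp_le_one_iff.2 (by nlinarith [hk.c1])
  have e1 : |Real.exp (μ * T)| * Real.exp (-((μ + 2 * k.c1) * T)) = k.D T ^ 2 := by
    rw [Real.abs_exp, Cst.D, sq, ← Real.exp_add, ← Real.exp_add]; congr 1; ring
  have e2 : Real.exp (-((μ + 2 * k.c1) * T)) ≤ k.D T ^ 2 := by
    rw [← e1, Real.abs_exp]
    exact le_mul_of_one_le_left (Real.exp_pos _).le (Real.one_le_exp (by positivity))
  have ji : ∀ y ∈ ball (0 : E) k.R, ∀ j, 1 ≤ j → ‖iteratedFDeriv ℝ j (fun x : E => x) y‖ ≤ k.c j :=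
    fun y _ j hj => (jet_id y hj).trans (hk.c j)
  have a1 : AP (N + 1) (k.D T ^ 2) fun τ => x S τ :=
    (ap_comp h1 (ContinuousLinearMap.fst ℝ _ _) (fun w => norm_fst_le w) contDiffOn_id ji).mono e2
  have a2 : AP (N + 1) (k.D T ^ 2) fun τ => H S (x' S τ) :=
    (ap_comp h2 (ContinuousLinearMap.fst ℝ _ _) (fun w => norm_fst_le w) (hL.sm S hS').1
      (hL.sm S hS').2).mono e2
  have a3 : AP (N + 1) (k.D T ^ 2) fun τ => A S τ (1, 0) := by
    have := (ap_comp h1 ((ContinuousLinearMap.apply ℝ E ((1 : ℝ), (0 : G))).comp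
      (ContinuousLinearMap.snd ℝ _ _)) (fun w => (w.2.le_opNorm _).trans (by
        simp [Prod.norm_def])) contDiffOn_id ji).smul (Real.exp (μ * T))
    rw [e1] at this
    convert this using 2 with τ
    simp [smul_smul, ← Real.exp_add]
  intro τ hτ
  have r1 := a3.remez hk.τ0 hk.τ1 (η := Real.exp (k.Λ * S) * (k.K * k.D T)) (fun t ht => by
    have := (k1 t 0 S S.zero_le hST (fun i _ hi => (hx.known t ht i (hi.trans hST)).1) (1, 0)).2
    rw [Nat.cast_zero, sub_zero] at this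
    exact this.trans (mul_le_mul_of_nonneg_left (hV.known t ht).1 (Real.exp_pos _).le)) τ hτ
  have r2 := ((a2.sub a1).sub a3).remez hk.τ0 hk.τ1 (fun t ht => k2 x' H hL t ht S hS') τ hτ
  have Λ0 := hk.Λ
  have x1 : 1 ≤ Real.exp (k.Λ * S) := Real.one_le_exp (by positivity)
  have x2 : 1 ≤ Real.exp ((2 * k.Λ + 2) * S) := Real.one_le_exp (by positivity)
  generalize Real.exp (k.Λ * S) = u at *
  generalize Real.exp ((2 * k.Λ + 2) * S) = v at *
  generalize (6 / k.τ0) ^ N = M at *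
  generalize k.D T = D at *
  have y1 : D ^ 2 ≤ u * D := by nlinarith
  have y2 : D ^ 2 ≤ v * D ^ 2 := le_mul_of_one_le_left (sq_nonneg D) x2
  have z1 := mul_le_mul_of_nonneg_left y1 M0
  have z2 := mul_le_mul_of_nonneg_left y2 M0
  have w1 : 0 ≤ M * (u * D) := by positivity
  have w2 : 0 ≤ M * (v * D ^ 2) := by positivity
  have w3 : 0 ≤ C * (M * (u * D)) := by positivity
  have w4 : 0 ≤ k.K * (M * (v * D ^ 2)) := by positivity
  have w5 : 0 ≤ u * D := by positivity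
  exact ⟨r1.trans (by linarith), r2.trans (by linarith)⟩

end Crest.Agent.N221.NC
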