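import Crest.Agent.N221.NC.Defs

/-!
Row 221, block NC (helper28): the core WITHOUT variation (msgs 3528, 3550).  `A S τ` is only the
frame of `Y_u`, the role of the variation is played by `H S (x' S τ) - x S τ`.
-/

set_option autoImplicit false

open Set Metric
open scoped ContDiff Topology

noncomputable section

namespace Crest.Agent.N221.NC

section structures

variable {E G : Type} [NormedAddCommGroup E] [NormedSpace ℝ E] [NormedAddCommGroup G]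
  [NormedSpace ℝ G]

/-- the frame of `Y_u` -/
structure FrF (k : Cst) (T : ℕ) (Φ : ℕ → E → E) (x : ℕ → ℝ → E) (A : ℕ → ℝ → G →L[ℝ] E) :
    Prop where
  tr : Tr k T Φ x A
  floor : ∀ τ ∈ Icc (0 : ℝ) 1, ∀ a, ‖a‖ ≤ k.K * ‖A T τ a‖

/-- the curve `x'` of the next node in the charts of this node -/
structure LinkF (k : Cst) (T : ℕ) (Φ : ℕ → E → E) (x x' : ℕ → ℝ → E)
    (A : ℕ → ℝ → G →L[ℝ] E) (H : ℕ → E → E) : Prop where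
  sm : ∀ S : ℕ, (S : ℝ) ≤ k.κ0 * T → ContDiffOn ℝ ∞ (H S) (ball 0 k.R) ∧
    ∀ y ∈ ball (0 : E) k.R, ∀ j, 1 ≤ j → ‖iteratedFDeriv ℝ j (H S) y‖ ≤ k.c j
  mem : ∀ τ ∈ Icc (0 : ℝ) k.τ0, ∀ S : ℕ, (S : ℝ) ≤ k.κ0 * T → H S (x' S τ) ∈ ball (0 : E) k.R
  rel : ∀ τ ∈ Icc (0 : ℝ) 1, ∀ S : ℕ, ((S + 1 : ℕ) : ℝ) ≤ k.κ0 * T →
    x' (S + 1) τ ∈ ball (0 : E) k.R → x' S τ ∈ ball (0 : E) k.R →
    H (S + 1) (x' (S + 1) τ) ∈ ball (0 : E) k.R →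
    H S (x' S τ) = Φ S (H (S + 1) (x' (S + 1) τ))
  known : ∀ τ ∈ Icc (0 : ℝ) k.τ0, ‖H 0 (x' 0 τ) - x 0 τ‖ ≤ k.K * k.D T ∧
    ∃ a, ‖H 0 (x' 0 τ) - x 0 τ - A 0 τ a‖ ≤ k.K * k.D T ^ 2

/-- backward contraction of `Y_u` -/
def BkF {X : Type} [PseudoMetricSpace X] (k : Cst) (T : ℕ) (x x' : ℕ → ℝ → E)
    (A : ℕ → ℝ → G →L[ℝ] E) (H : ℕ → E → E) (P P' : ℕ → ℝ → X) : Prop :=
  ∀ τ ∈ Icc (0 : ℝ) 1, ∀ S j : ℕ, (S : ℝ) ≤ k.κ0 * T →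
    (∀ S', S ≤ S' → S' ≤ T → ‖x S' τ‖ ≤ k.R / k.K ∧ ‖x' S' τ‖ ≤ k.R / k.K) →
    Real.exp (k.Λ * (S + j)) * ‖H S (x' S τ) - x S τ‖ ≤ k.R / k.K → ∀ a,
    dist (P' j τ) (P j τ) ≤ k.K * (Real.exp (-(k.χ * (S + j))) * ‖A S τ a‖ +
      Real.exp (k.Λ * (S + j)) * ‖H S (x' S τ) - x S τ - A S τ a‖ +
      Real.exp (2 * k.Λ * (S + j)) * ‖H S (x' S τ) - x S τ‖ ^ 2)

end structures

/-- THE CORE: the polygon of the ends of the curves has vanishing length at some negative time -/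
def CoreF : Prop := ∀ (E G : Type) [NormedAddCommGroup E] [NormedSpace ℝ E]
  [FiniteDimensional ℝ E] [NormedAddCommGroup G] [NormedSpace ℝ G] [FiniteDimensional ℝ G]
  (k : Cst), k.Ok → ∀ η : ℝ, 0 < η → ∃ T0 : ℕ, ∀ T, T0 ≤ T →
  ∀ (X : Type) [PseudoMetricSpace X] (n : ℕ) (ν : E → ℝ) (Φ H : ℕ → ℕ → E → E)
    (Lf : ℕ → ℕ → Set E) (x : ℕ → ℕ → ℝ → E) (A : ℕ → ℕ → ℝ → G →L[ℝ] E)
    (P : ℕ → ℕ → ℝ → X), n * k.D T ≤ k.K → (∀ i ≤ n, Crv k T ν (Φ i) (Lf i) (x i)) →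
    (∀ i < n, FrF k T (Φ i) (x i) (A i) ∧ LinkF k T (Φ i) (x i) (x (i + 1)) (A i) (H i) ∧
      BkF k T (x i) (x (i + 1)) (A i) (H i) (P i) (P (i + 1))) →
    ∃ τ ∈ Icc (0 : ℝ) 1, 1 - η ≤ τ ∧ ∃ j, dist (P n j τ) (P 0 j τ) ≤ η

/-! ### leaves -/

/-- growth of transported vectors, and of the errors on the known part -/
def KnF : Prop := ∀ (k : Cst), k.Ok → ∃ C : ℝ, 1 ≤ C ∧ ∀ (T : ℕ)
  (E G : Type) [NormedAddCommGroup E] [NormedSpace ℝ E] [NormedAddCommGroup G] [NormedSpace ℝ G]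
    (ν : E → ℝ) (Φ : ℕ → E → E) (Lf : ℕ → Set E) (x : ℕ → ℝ → E)
    (A : ℕ → ℝ → G →L[ℝ] E), Crv k T ν Φ Lf x → Tr k T Φ x A →
    (∀ (τ : ℝ) (S S' : ℕ), S ≤ S' → S' ≤ T → (∀ i, S < i → i ≤ S' → x i τ ∈ ball (0 : E) k.R) →
      ∀ w, ‖A S τ w‖ ≤ Real.exp (k.Λ * (S' - S)) * ‖A S' τ w‖ ∧
        ‖A S' τ w‖ ≤ Real.exp (k.Λ * (S' - S)) * ‖A S τ w‖) ∧
    ∀ (Φ' H : ℕ → E → E) (Lf' : ℕ → Set E) (x' : ℕ → ℝ → E), Crv k T ν Φ' Lf' x' →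
      LinkF k T Φ x x' A H → ∀ τ ∈ Icc (0 : ℝ) k.τ0, ∀ S : ℕ, (S : ℝ) ≤ k.κ0 * T →
        ‖H S (x' S τ) - x S τ‖ ≤ C * Real.exp ((k.Λ + 1) * S) * k.D T ∧
        ∃ a, ‖H S (x' S τ) - x S τ - A S τ a‖ ≤ C * Real.exp ((2 * k.Λ + 2) * S) * k.D T ^ 2

/-- N3: comparison of two nodes -/
def CmpF : Prop := ∀ (k : Cst), k.Ok → ∀ s : ℝ, 0 < s → ∃ C : ℝ, 1 ≤ C ∧ ∃ T0 : ℕ, ∀ T, T0 ≤ T →
  ∀ (E G : Type) [NormedAddCommGroup E] [NormedSpace ℝ E] [CompleteSpace E]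
    [NormedAddCommGroup G] [NormedSpace ℝ G] (ν : E → ℝ) (Φ Φ' H : ℕ → E → E)
    (Lf Lf' : ℕ → Set E) (x x' : ℕ → ℝ → E) (A : ℕ → ℝ → G →L[ℝ] E),
    Crv k T ν Φ Lf x → Crv k T ν Φ' Lf' x' → LinkF k T Φ x x' A H →
    ∀ S : ℕ, s * T ≤ S → (S : ℝ) ≤ k.κ0 * T → ∀ τ ∈ Icc (0 : ℝ) 1,
      ‖H S (x' S τ) - x S τ‖ ≤ C * Real.exp ((2 * k.Λ + 2) * S) * k.D T

/-- N4 at ONE level `S ≈ s T` (product curve, `Γ = Q (λ A, λ (H x' - x))`) -/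
def AngF1 : Prop := ∀ (E G : Type) [NormedAddCommGroup E] [NormedSpace ℝ E]
  [FiniteDimensional ℝ E] [NormedAddCommGroup G] [NormedSpace ℝ G] [FiniteDimensional ℝ G]
  (k : Cst), k.Ok → ∀ s δ : ℝ, 0 < s → 0 < δ → ∃ (γ : ℝ) (N T0 : ℕ), 0 < γ ∧ ∀ T, T0 ≤ T →
  ∀ (ν : E → ℝ) (Φ Φ' H : ℕ → E → E) (Lf Lf' : ℕ → Set E) (x x' : ℕ → ℝ → E)
    (A : ℕ → ℝ → G →L[ℝ] E), Crv k T ν Φ Lf x → Crv k T ν Φ' Lf' x' → FrF k T Φ x A →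
    LinkF k T Φ x x' A H → ∀ S : ℕ, s * T ≤ S → (S : ℝ) ≤ k.κ0 * T →
    ∀ t : Finset ℝ, N < t.card → (∀ τ ∈ t, τ ∈ Icc (0 : ℝ) 1) →
      (∀ τ ∈ t, ∀ τ' ∈ t, τ ≠ τ' → Real.exp (-(γ * T)) ≤ |τ - τ'|) →
      ∃ τ ∈ t, ∃ a, ‖H S (x' S τ) - x S τ - A S τ a‖ ≤
        Real.exp (δ * T) * Real.exp ((2 * k.Λ + 2) * S) * k.D T ^ 2

/-- N4: among `N + 1` separated parameters one has a small angle -/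
def AngF : Prop := ∀ (E G : Type) [NormedAddCommGroup E] [NormedSpace ℝ E]
  [FiniteDimensional ℝ E] [NormedAddCommGroup G] [NormedSpace ℝ G] [FiniteDimensional ℝ G]
  (k : Cst), k.Ok → ∃ (κ γ : ℝ) (N T0 : ℕ), 0 < κ ∧ 0 < γ ∧ ∀ T, T0 ≤ T →
  ∀ (ν : E → ℝ) (Φ Φ' H : ℕ → E → E) (Lf Lf' : ℕ → Set E) (x x' : ℕ → ℝ → E)
    (A : ℕ → ℝ → G →L[ℝ] E), Crv k T ν Φ Lf x → Crv k T ν Φ' Lf' x' → FrF k T Φ x A →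
    LinkF k T Φ x x' A H →
    ∀ t : Finset ℝ, N < t.card → (∀ τ ∈ t, τ ∈ Icc (0 : ℝ) 1) →
      (∀ τ ∈ t, ∀ τ' ∈ t, τ ≠ τ' → Real.exp (-(γ * T)) ≤ |τ - τ'|) →
      ∃ τ ∈ t, ∀ S : ℕ, (S : ℝ) ≤ κ * T →
        (∀ i, S ≤ i → i ≤ T → ‖x i τ‖ ≤ k.R / 2 ∧ ‖x' i τ‖ ≤ k.R / 2) →
        ∃ a, ‖H S (x' S τ) - x S τ - A S τ a‖ ≤ k.D T * Real.exp (-(k.c1 / 2 * T))

end Crest.Agent.N221.NC
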