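import Crest.Agent.N221.NC.Defs

/-! Row 221, block NC: jets of the tangent map (`ExtS`), second order deviation (`DevS`). -/

set_option autoImplicit false

open Set Metric
open scoped ContDiff Topology

namespace Crest.Agent.N221.NC

namespace Ext

variable {E F V : Type} [NormedAddCommGroup E] [NormedSpace ℝ E] [NormedAddCommGroup F]
  [NormedSpace ℝ F] [NormedAddCommGroup V] [NormedSpace ℝ V]

lemma le_inf (k : ℕ) : (k : WithTop ℕ∞) ≤ ∞ := by exact_mod_cast le_top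

lemma fst_le {f : E → V} {U : Set E} (hU : IsOpen U) (hf : ContDiffOn ℝ ∞ f U) {z : E × F}
    (hz : z.1 ∈ U) (j : ℕ) :
    ‖iteratedFDeriv ℝ j (fun z : E × F => f z.1) z‖ ≤ ‖iteratedFDeriv ℝ j f z.1‖ := by
  have ho : IsOpen (ContinuousLinearMap.fst ℝ E F ⁻¹' U) := hU.preimage continuous_fst
  have h := (ContinuousLinearMap.fst ℝ E F).iteratedFDerivWithin_comp_right hf hU.uniqueDiffOn
    ho.uniqueDiffOn (x := z) hz (le_inf j)
  rw [iteratedFDerivWithin_of_isOpen j ho hz, ContinuousLinearMap.coe_fst',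
    iteratedFDerivWithin_of_isOpen j hU hz] at h
  refine (congrArg norm h).trans_le ((ContinuousMultilinearMap.norm_compContinuousLinearMap_le _
    _).trans (mul_le_of_le_one_right (norm_nonneg _) ?_))
  exact Finset.prod_le_one (fun _ _ => norm_nonneg _) fun _ _ => ContinuousLinearMap.norm_fst_le ..

lemma snd_le {z : E × F} (hz : ‖z‖ ≤ 1) (j : ℕ) :
    ‖iteratedFDeriv ℝ j (fun z : E × F => z.2) z‖ ≤ 1 := by
  rcases j with _ | j
  · rw [norm_iteratedFDeriv_zero]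
    exact (norm_snd_le z).trans hz
  rw [← norm_iteratedFDeriv_fderiv, show fderiv ℝ (fun z : E × F => z.2) =
    fun _ => ContinuousLinearMap.snd ℝ E F from funext fun _ => fderiv_snd]
  rcases eq_or_ne j 0 with rfl | hj
  · rw [norm_iteratedFDeriv_zero]
    exact ContinuousLinearMap.norm_snd_le ..
  · rw [iteratedFDeriv_const_of_ne hj]
    simp

/-- one step: first and second order bounds -/
lemma one {Θ : E → E} {R b c : ℝ} (hc : 0 ≤ c) (h : ContDiffOn ℝ ∞ Θ (ball 0 R)) (h0 : Θ 0 = 0)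
    (hb : ∀ z ∈ ball (0 : E) R, ‖fderiv ℝ Θ z‖ ≤ b ∧ ‖iteratedFDeriv ℝ 2 Θ z‖ ≤ c) {y : E}
    (hy : y ∈ ball (0 : E) R) : ‖Θ y‖ ≤ b * ‖y‖ ∧ ‖Θ y - fderiv ℝ Θ 0 y‖ ≤ c * ‖y‖ ^ 2 ∧
      ‖fderiv ℝ Θ 0‖ ≤ b := by
  have hB := convex_ball (0 : E) R
  have hx : (0 : E) ∈ ball (0 : E) R := mem_ball_self ((norm_nonneg y).trans_lt (mem_ball_zero_iff.1 hy))
  have d1 : ∀ x ∈ ball (0 : E) R, DifferentiableAt ℝ Θ x := fun x hx =>
    (h.contDiffAt (isOpen_ball.mem_nhds hx)).differentiableAt (by simp)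
  have d2 : ∀ x ∈ ball (0 : E) R, DifferentiableAt ℝ (fderiv ℝ Θ) x := fun x hx =>
    ((h.fderiv_of_isOpen (m := ∞) isOpen_ball (by simp)).contDiffAt
      (isOpen_ball.mem_nhds hx)).differentiableAt (by simp)
  have l2 : ∀ z ∈ ball (0 : E) R, ‖fderiv ℝ Θ z - fderiv ℝ Θ 0‖ ≤ c * ‖z - 0‖ := fun z hz =>
    hB.norm_image_sub_le_of_norm_fderiv_le d2 (fun u hu => ((norm_iteratedFDeriv_one _).symm.trans
      norm_iteratedFDeriv_fderiv).trans_le (hb u hu).2) hx hz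
  have hs := hB.segment_subset hx hy
  have h1 := hB.norm_image_sub_le_of_norm_fderiv_le d1 (fun u hu => (hb u hu).1) hx hy
  have h2 := (convex_segment 0 y).norm_image_sub_le_of_norm_fderiv_le' (C := c * ‖y - 0‖)
    (fun u hu => d1 u (hs hu)) (fun u hu => (l2 u (hs hu)).trans
      (mul_le_mul_of_nonneg_left (norm_sub_le_of_mem_segment hu) hc)) (left_mem_segment ℝ 0 y)
    (right_mem_segment ℝ 0 y)
  simp only [h0, sub_zero] at h1 h2
  exact ⟨h1, h2.trans_eq (by ring), (hb 0 hx).1⟩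

end Ext

open Ext

theorem extS : ExtS := by
  intro c hc
  refine ⟨fun j => max (c j) (∑ i ∈ Finset.range (j + 1), (j.choose i : ℝ) * c (i + 1)), ?_⟩
  intro E F _ _ _ _ Φ R hR hΦ hb
  have m1 : MapsTo Prod.fst (ball (0 : E × (F →L[ℝ] E)) R) (ball 0 R) := fun z hz =>
    mem_ball_zero_iff.2 ((norm_fst_le z).trans_lt (mem_ball_zero_iff.1 hz))
  have hD : ContDiffOn ℝ ∞ (fderiv ℝ Φ) (ball 0 R) := hΦ.fderiv_of_isOpen isOpen_ball (by simp)
  have s1 : ContDiffOn ℝ ∞ (fun z : E × (F →L[ℝ] E) => Φ z.1) (ball 0 R) := hΦ.comp contDiffOn_fst m1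
  have s2 : ContDiffOn ℝ ∞ (fun z : E × (F →L[ℝ] E) => fderiv ℝ Φ z.1) (ball 0 R) :=
    hD.comp contDiffOn_fst m1
  have s3 := s2.clm_comp (contDiffOn_snd (E := E) (F := F →L[ℝ] E))
  refine ⟨s1.prodMk s3, fun z hz j hj => ?_⟩
  have hn := isOpen_ball.mem_nhds hz
  rw [iteratedFDeriv_prodMk (s1.contDiffAt hn) (s3.contDiffAt hn) (le_inf j),
    ContinuousMultilinearMap.opNorm_prod]
  refine max_le_max ((fst_le isOpen_ball hΦ (m1 hz) j).trans (hb _ (m1 hz) j hj)) ?_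
  rw [← iteratedFDerivWithin_of_isOpen j isOpen_ball hz]
  refine ((ContinuousLinearMap.compL ℝ F E E).norm_iteratedFDerivWithin_le_of_bilinear_of_le_one s2
    contDiffOn_snd isOpen_ball.uniqueDiffOn hz (le_inf j)
    (ContinuousLinearMap.norm_compL_le ..)).trans (Finset.sum_le_sum fun i _ => ?_)
  rw [iteratedFDerivWithin_of_isOpen _ isOpen_ball hz, iteratedFDerivWithin_of_isOpen _ isOpen_ball hz]
  refine (mul_le_of_le_one_right (by positivity)
    (snd_le ((mem_ball_zero_iff.1 hz).le.trans hR) _)).trans (mul_le_mul_of_nonneg_left ?_ (by positivity))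
  exact (fst_le isOpen_ball hD (m1 hz) i).trans
    (norm_iteratedFDeriv_fderiv.trans_le (hb _ (m1 hz) _ (Nat.le_add_left 1 i)))

theorem devS : DevS := by
  intro E _ _ R b c L Θ y w hb hc hΘ hr hL j
  have b0 : 0 ≤ b := zero_le_one.trans hb
  induction j with
  | zero => simp
  | succ j ih =>
    intro hj
    obtain ⟨h1, h2⟩ := ih (Nat.le_of_succ_le hj)
    obtain ⟨h3, h4, h5⟩ := one hc (hΘ j hj).1 (hΘ j hj).2.1 (hΘ j hj).2.2 (mem_ball_zero_iff.2
      ((h1.trans (mul_le_mul_of_nonneg_right (pow_le_pow_right₀ hb (Nat.le_of_succ_le hj))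
        (norm_nonneg _))).trans_lt hL))
    rw [(hr j hj).1, (hr j hj).2]
    refine ⟨h3.trans ((mul_le_mul_of_nonneg_left h1 b0).trans_eq (by ring)), ?_⟩
    have e : Θ j (y j) - fderiv ℝ (Θ j) 0 (w j) =
        (Θ j (y j) - fderiv ℝ (Θ j) 0 (y j)) + fderiv ℝ (Θ j) 0 (y j - w j) := by
      rw [map_sub]
      abel
    have h6 : ‖y j‖ ^ 2 ≤ b ^ (2 * (j + 1)) * ‖y 0‖ ^ 2 := by
      refine (pow_le_pow_left₀ (norm_nonneg _) h1 2).trans ?_
      rw [mul_pow, ← pow_mul]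
      exact mul_le_mul_of_nonneg_right (pow_le_pow_right₀ hb (by omega)) (by positivity)
    have h7 : b * b ^ (2 * j) ≤ b ^ (2 * (j + 1)) := by
      rw [← pow_succ']
      exact pow_le_pow_right₀ hb (by omega)
    have h8 := ((fderiv ℝ (Θ j) 0).le_of_opNorm_le h5 (y j - w j)).trans
      (mul_le_mul_of_nonneg_left h2 b0)
    have h9 := mul_le_mul_of_nonneg_left h6 hc
    have h10 := mul_le_mul_of_nonneg_left h7 (show 0 ≤ c * j * ‖y 0‖ ^ 2 by positivity)
    rw [e]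
    refine (norm_add_le_of_le h4 h8).trans ?_
    push_cast
    rw [pow_succ b j]
    linarith

end Crest.Agent.N221.NC
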