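import Crest.Agent.N221.NC.Kn
import Crest.Agent.N221.NC.Ext

/-! Row 221, block NC: product of two node chains (`Crv.prod`, `Tr.prod`) and the transfer of a
first order expansion from a later to an earlier time (`Crv.transfer`). -/

set_option autoImplicit false

open Set Metric
open scoped ContDiff Topology

noncomputable section

namespace Crest.Agent.N221.NC

variable {E F V : Type} [NormedAddCommGroup E] [NormedSpace ℝ E] [NormedAddCommGroup F]
  [NormedSpace ℝ F] [NormedAddCommGroup V] [NormedSpace ℝ V]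

lemma ball_prod {R : ℝ} {y : E × F} :
    y ∈ ball (0 : E × F) R ↔ y.1 ∈ ball (0 : E) R ∧ y.2 ∈ ball (0 : F) R := by
  simp only [mem_ball_zero_iff, Prod.norm_def, max_lt_iff]

/-- jets of `f ∘ L` for a linear contraction `L` -/
lemma jet_clm {f : E → V} {U : Set E} (hU : IsOpen U) (hf : ContDiffOn ℝ ∞ f U) (L : F →L[ℝ] E)
    (hL : ‖L‖ ≤ 1) {z : F} (hz : L z ∈ U) (j : ℕ) :
    ‖iteratedFDeriv ℝ j (fun z => f (L z)) z‖ ≤ ‖iteratedFDeriv ℝ j f (L z)‖ := by
  have ho : IsOpen (L ⁻¹' U) := hU.preimage L.continuous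
  have := L.iteratedFDerivWithin_comp_right hf hU.uniqueDiffOn ho.uniqueDiffOn hz (Ext.le_inf j)
  rw [iteratedFDerivWithin_of_isOpen _ ho hz, iteratedFDerivWithin_of_isOpen _ hU hz] at this
  change ‖iteratedFDeriv ℝ j (f ∘ L) z‖ ≤ _
  rw [this]
  refine (ContinuousMultilinearMap.norm_compContinuousLinearMap_le _ _).trans ?_
  exact mul_le_of_le_one_right (norm_nonneg _)
    (Finset.prod_le_one (fun _ _ => norm_nonneg _) fun _ _ => hL)

section
variable {R : ℝ} {Φ : E → E} {Φ' : F → F} (h : ContDiffOn ℝ ∞ Φ (ball 0 R))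
  (h' : ContDiffOn ℝ ∞ Φ' (ball 0 R))
include h h'

lemma sm_map : ContDiffOn ℝ ∞ (Prod.map Φ Φ') (ball 0 R) :=
  (h.comp contDiffOn_fst fun _ hy => (ball_prod.1 hy).1).prodMk
    (h'.comp contDiffOn_snd fun _ hy => (ball_prod.1 hy).2)

lemma fderiv_map {y : E × F} (hy : y ∈ ball (0 : E × F) R) (v : E × F) :
    fderiv ℝ (Prod.map Φ Φ') y v = (fderiv ℝ Φ y.1 v.1, fderiv ℝ Φ' y.2 v.2) := by
  have a := ((h.contDiffAt (isOpen_ball.mem_nhds (ball_prod.1 hy).1)).differentiableAt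
    (by simp)).hasFDerivAt
  have a' := ((h'.contDiffAt (isOpen_ball.mem_nhds (ball_prod.1 hy).2)).differentiableAt
    (by simp)).hasFDerivAt
  rw [(HasFDerivAt.prodMap y a a').fderiv]; rfl

lemma jet_map {y : E × F} (hy : y ∈ ball (0 : E × F) R) (j : ℕ) :
    ‖iteratedFDeriv ℝ j (Prod.map Φ Φ') y‖ ≤
      max ‖iteratedFDeriv ℝ j Φ y.1‖ ‖iteratedFDeriv ℝ j Φ' y.2‖ := by
  have a := (sm_map h h').contDiffAt (isOpen_ball.mem_nhds hy)
  have e := iteratedFDeriv_prodMk a.fst a.snd (Ext.le_inf j)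
  change iteratedFDeriv ℝ j (Prod.map Φ Φ') y = _ at e
  rw [e, ContinuousMultilinearMap.opNorm_prod]
  exact max_le_max (jet_clm isOpen_ball h (ContinuousLinearMap.fst ℝ E F)
      (ContinuousLinearMap.norm_fst_le ..) (ball_prod.1 hy).1 j)
    (jet_clm isOpen_ball h' (ContinuousLinearMap.snd ℝ E F)
      (ContinuousLinearMap.norm_snd_le ..) (ball_prod.1 hy).2 j)

end

variable {k : Cst} {T : ℕ} {ν : E → ℝ} {Φ Φ' : ℕ → E → E} {Lf Lf' : ℕ → Set E} {x x' : ℕ → ℝ → E}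

/-- the product of two node chains -/
theorem Crv.prod (hk : k.Ok) (h : Crv k T ν Φ Lf x) (h' : Crv k T ν Φ' Lf' x') :
    Crv k T (fun y : E × E => max (ν y.1) (ν y.2)) (fun S => Prod.map (Φ S) (Φ' S))
      (fun S => Lf S ×ˢ Lf' S) (fun S τ => (x S τ, x' S τ)) where
  sm S hS := sm_map (h.sm S hS) (h'.sm S hS)
  zero S hS := by
    change (Φ S 0, Φ' S 0) = 0
    rw [h.zero S hS, h'.zero S hS]; rfl
  d1 S hS y hy := ContinuousLinearMap.opNorm_le_bound _ (Real.exp_pos _).le fun v => by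
    rw [fderiv_map (h.sm S hS) (h'.sm S hS) hy, Prod.norm_def]
    exact max_le ((ContinuousLinearMap.le_opNorm _ _).trans (mul_le_mul
        (h.d1 S hS _ (ball_prod.1 hy).1) (norm_fst_le v) (norm_nonneg _) (Real.exp_pos _).le))
      ((ContinuousLinearMap.le_opNorm _ _).trans (mul_le_mul
        (h'.d1 S hS _ (ball_prod.1 hy).2) (norm_snd_le v) (norm_nonneg _) (Real.exp_pos _).le))
  dj S hS y hy j hj := (jet_map (h.sm S hS) (h'.sm S hS) hy j).trans
    (max_le (h.dj S hS _ (ball_prod.1 hy).1 j hj) (h'.dj S hS _ (ball_prod.1 hy).2 j hj))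
  low S hS y hy v := by
    rw [fderiv_map (h.sm S hS) (h'.sm S hS) hy, Prod.norm_def v]
    exact max_le ((h.low S hS _ (ball_prod.1 hy).1 v.1).trans
        (mul_le_mul_of_nonneg_left (norm_fst_le (_, _)) (Real.exp_pos _).le))
      ((h'.low S hS _ (ball_prod.1 hy).2 v.2).trans
        (mul_le_mul_of_nonneg_left (norm_snd_le (_, _)) (Real.exp_pos _).le))
  leaf S hS y hy hb := by
    obtain ⟨a1, a2⟩ := h.leaf S hS _ hy.1 (ball_prod.1 hb).1
    obtain ⟨b1, b2⟩ := h'.leaf S hS _ hy.2 (ball_prod.1 hb).2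
    exact ⟨⟨a1, b1⟩, max_le
      (a2.trans (mul_le_mul_of_nonneg_left (le_max_left _ _) (Real.exp_pos _).le))
      (b2.trans (mul_le_mul_of_nonneg_left (le_max_right _ _) (Real.exp_pos _).le))⟩
  nu S hS y hy hb := by
    have hK : 0 ≤ k.K := by linarith [hk.K]
    rw [Prod.norm_def]
    exact max_le ((h.nu S hS _ hy.1 (ball_prod.1 hb).1).trans
        (mul_le_mul_of_nonneg_left (le_max_left _ _) hK))
      ((h'.nu S hS _ hy.2 (ball_prod.1 hb).2).trans
        (mul_le_mul_of_nonneg_left (le_max_right _ _) hK))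
  nu' y := max_le ((h.nu' _).trans (norm_fst_le y)) ((h.nu' _).trans (norm_snd_le y))
  rel S hS := by
    ext1 τ
    rw [h.rel S hS, h'.rel S hS]; rfl
  top τ hτ := by
    obtain ⟨a1, a2, a3, a4⟩ := h.top τ hτ
    obtain ⟨b1, b2, b3, b4⟩ := h'.top τ hτ
    refine ⟨a1.prodMk b1, ⟨a2, b2⟩, max_le a3 b3, fun j hj => ?_⟩
    simp only [iteratedDeriv_eq_iteratedFDeriv] at a4 b4 ⊢
    rw [iteratedFDeriv_prodMk a1 b1 (Ext.le_inf j)]
    exact max_le (a4 j hj) (b4 j hj)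
  known τ hτ S hS := ⟨ball_prod.2 ⟨(h.known τ hτ S hS).1, (h'.known τ hτ S hS).1⟩,
    max_le (h.known τ hτ S hS).2 (h'.known τ hτ S hS).2⟩

/-- transport from time `T` -/
def trp (T : ℕ) (Φ : ℕ → E → E) (x : ℕ → ℝ → E) (B : ℝ → F →L[ℝ] E) : ℕ → ℝ → F →L[ℝ] E
  | 0 => B
  | j + 1 => fun τ => fderiv ℝ (Φ (T - (j + 1))) (x (T - j) τ) ∘L trp T Φ x B j τ

/-- every family at time `T` is transported -/
theorem exists_tr (T : ℕ) (Φ : ℕ → E → E) (x : ℕ → ℝ → E) (B : ℝ → F →L[ℝ] E) :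
    ∃ A : ℕ → ℝ → F →L[ℝ] E, A T = B ∧
      ∀ S < T, ∀ τ, A S τ = fderiv ℝ (Φ S) (x (S + 1) τ) ∘L A (S + 1) τ := by
  refine ⟨fun S => trp T Φ x B (T - S), by simp [trp], fun S hS τ => ?_⟩
  have e : T - S = T - (S + 1) + 1 := by omega
  simp only [e, trp]
  rw [show T - (T - (S + 1) + 1) = S by omega, show T - (T - (S + 1)) = S + 1 by omega]

/-- the family `(A, 0)` along the product chain -/
theorem Tr.prod {A : ℕ → ℝ → F →L[ℝ] E} (h : Crv k T ν Φ Lf x) (h' : Crv k T ν Φ' Lf' x')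
    (hA : Tr k T Φ x A) : ∃ A' : ℕ → ℝ → F →L[ℝ] E × E,
      Tr k T (fun S => Prod.map (Φ S) (Φ' S)) (fun S τ => (x S τ, x' S τ)) A' ∧
      ∀ S ≤ T, ∀ τ, (∀ i, S < i → i ≤ T → x i τ ∈ ball (0 : E) k.R ∧ x' i τ ∈ ball (0 : E) k.R) →
        ∀ a, A' S τ a = (A S τ a, 0) := by
  set I := ContinuousLinearMap.compL ℝ F E (E × E) (ContinuousLinearMap.inl ℝ E E) with hI
  obtain ⟨A', e1, e2⟩ := exists_tr T (fun S => Prod.map (Φ S) (Φ' S)) (fun S τ => (x S τ, x' S τ))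
    fun τ => I (A T τ)
  refine ⟨A', ⟨e2, fun τ hτ => ?_⟩, ?_⟩
  · obtain ⟨a1, a2⟩ := hA.top τ hτ
    rw [e1]
    refine ⟨I.contDiff.contDiffAt.comp τ a1, fun j => le_trans ?_ (a2 j)⟩
    simp only [iteratedDeriv_eq_iteratedFDeriv]
    have := I.iteratedFDeriv_comp_left a1 (Ext.le_inf j)
    change iteratedFDeriv ℝ j (fun τ => I (A T τ)) τ = _ at this
    rw [this]
    refine ContinuousLinearMap.opNorm_le_bound _ (norm_nonneg _) fun a => ?_
    simpa [hI, Prod.norm_def] using ContinuousLinearMap.le_opNorm _ a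
  · have key : ∀ j S, S + j = T → ∀ τ,
        (∀ i, S < i → i ≤ T → x i τ ∈ ball (0 : E) k.R ∧ x' i τ ∈ ball (0 : E) k.R) →
        ∀ a, A' S τ a = (A S τ a, 0) := by
      intro j
      induction j with
      | zero => intro S hS τ _ a; obtain rfl : S = T := by omega
                rw [e1]; rfl
      | succ j ih =>
        intro S hS τ hb a
        have hS' : S < T := by omega
        rw [e2 S hS', hA.rel S hS', ContinuousLinearMap.comp_apply, ContinuousLinearMap.comp_apply,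
          ih (S + 1) (by omega) τ (fun i h1 h2 => hb i (by omega) h2),
          fderiv_map (h.sm S hS') (h'.sm S hS') (ball_prod.2 (hb (S + 1) (by omega) hS')), map_zero]
    exact fun S hS => key (T - S) S (by omega)

/-- TRANSFER of a first order expansion from time `S + L` back to time `S` -/
theorem Crv.transfer {A : ℕ → ℝ → F →L[ℝ] E} (hk : k.Ok) (h : Crv k T ν Φ Lf x)
    (hA : Tr k T Φ x A) (τ : ℝ) (y : ℕ → E) (a : F) (L S : ℕ) (hS : S + L ≤ T)
    (hy : ∀ i, S ≤ i → i < S + L → y (i + 1) ∈ ball (0 : E) k.R → y i = Φ i (y (i + 1)))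
    (hx : ∀ i, S < i → i ≤ S + L → ‖x i τ‖ ≤ k.R / 2)
    (hd : Real.exp (k.Λ * L) * ‖y (S + L) - x (S + L) τ‖ < k.R / 2) :
    ‖y S - x S τ‖ ≤ Real.exp (k.Λ * L) * ‖y (S + L) - x (S + L) τ‖ ∧
      ‖y S - x S τ - A S τ a‖ ≤ Real.exp (k.Λ * L) * ‖y (S + L) - x (S + L) τ - A (S + L) τ a‖ +
        k.c 2 * L * (Real.exp (k.Λ * L) * ‖y (S + L) - x (S + L) τ‖) ^ 2 := by
  induction L generalizing S with
  | zero => simp
  | succ L ih =>
    have hΛ := hk.Λ
    have e : S + (L + 1) = S + 1 + L := by omega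
    rw [e] at hd hy hx hS ⊢
    have e2 : Real.exp (k.Λ * (L + 1 : ℕ)) = Real.exp k.Λ * Real.exp (k.Λ * L) := by
      rw [← Real.exp_add]; congr 1; push_cast; ring
    have h1 : 1 ≤ Real.exp k.Λ := Real.one_le_exp hΛ.le
    rw [e2, mul_assoc] at hd ⊢
    set D := Real.exp (k.Λ * L) * ‖y (S + 1 + L) - x (S + 1 + L) τ‖ with hD
    have hD0 : 0 ≤ D := by positivity
    have hD1 : D ≤ Real.exp k.Λ * D := le_mul_of_one_le_left hD0 h1
    obtain ⟨a1, a2⟩ := ih (S + 1) hS (fun i h1 h2 => hy i (by omega) h2)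
      (fun i h1 h2 => hx i (by omega) h2) (hD1.trans_lt hd)
    have hS' : S < T := by omega
    have b1 := hx (S + 1) (by omega) (by omega)
    have hR := hk.R
    have hxb : x (S + 1) τ ∈ ball (0 : E) k.R := mem_ball_zero_iff.2 (by linarith)
    have hyb : y (S + 1) ∈ ball (0 : E) k.R := mem_ball_zero_iff.2 (by
      have := norm_add_le (x (S + 1) τ) (y (S + 1) - x (S + 1) τ)
      rw [add_sub_cancel] at this; linarith)
    rw [hy S le_rfl (by omega) hyb, h.rel S hS', hA.rel S hS']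
    simp only [Function.comp, ContinuousLinearMap.comp_apply]
    have c1 := (convex_ball (0 : E) k.R).norm_image_sub_le_of_norm_fderiv_le
      (fun z hz => ((h.sm S hS').contDiffAt (isOpen_ball.mem_nhds hz)).differentiableAt (by simp))
      (h.d1 S hS') hxb hyb
    have c2 := Kn.taylor (h.sm S hS') (fun z hz => h.dj S hS' z hz 2 (by norm_num)) hxb hyb
    have c3 : ∀ w, ‖fderiv ℝ (Φ S) (x (S + 1) τ) w‖ ≤ Real.exp k.Λ * ‖w‖ := fun w =>
      (ContinuousLinearMap.le_opNorm _ _).trans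
        (mul_le_mul_of_nonneg_right (h.d1 S hS' _ hxb) (norm_nonneg _))
    refine ⟨c1.trans (mul_le_mul_of_nonneg_left a1 (by positivity)), ?_⟩
    have e3 : Φ S (y (S + 1)) - Φ S (x (S + 1) τ) - fderiv ℝ (Φ S) (x (S + 1) τ) (A (S + 1) τ a) =
        (Φ S (y (S + 1)) - Φ S (x (S + 1) τ) -
          fderiv ℝ (Φ S) (x (S + 1) τ) (y (S + 1) - x (S + 1) τ)) +
        fderiv ℝ (Φ S) (x (S + 1) τ) (y (S + 1) - x (S + 1) τ - A (S + 1) τ a) := by
      rw [map_sub _ (y (S + 1) - x (S + 1) τ)]; abel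
    rw [e3]
    refine (norm_add_le_of_le c2 (c3 _)).trans ?_
    have hc := hk.c 2
    have d1 : ‖y (S + 1) - x (S + 1) τ‖ * ‖y (S + 1) - x (S + 1) τ‖ ≤ D * D :=
      mul_le_mul a1 a1 (norm_nonneg _) hD0
    have d2 := mul_le_mul_of_nonneg_left d1 (show 0 ≤ k.c 2 by linarith)
    have d3 := mul_le_mul_of_nonneg_left a2 (show 0 ≤ Real.exp k.Λ by linarith)
    have d4 : D * D ≤ (Real.exp k.Λ * D) ^ 2 := by nlinarith
    have d5 : Real.exp k.Λ * D ^ 2 ≤ (Real.exp k.Λ * D) ^ 2 := by nlinarith [sq_nonneg D]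
    have d6 := mul_le_mul_of_nonneg_left d4 (show 0 ≤ k.c 2 by linarith)
    have d7 := mul_le_mul_of_nonneg_left d5 (show 0 ≤ k.c 2 * L by positivity)
    push_cast
    nlinarith

end Crest.Agent.N221.NC
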