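import Crest.Agent.N221.NC.Ang
import Crest.Agent.N221.NC.Prod
import Crest.Agent.N221.NC.Cmp
import Crest.Agent.N221.NC.Fd

/-! Row 221, block NC, N4 without the variation: the angle of the difference of two curves (helper32). -/

set_option autoImplicit false

open Set Metric
open scoped ContDiff Topology Nat

noncomputable section

namespace Crest.Agent.N221.NC

namespace AngP

/-- jets of `Q ∘ f`, uniformly in `f` -/
theorem comp_jets {Y V : Type} [NormedAddCommGroup Y] [NormedSpace ℝ Y] [FiniteDimensional ℝ Y]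
    [NormedAddCommGroup V] [NormedSpace ℝ V] {Q : Y → V} (hQ : ContDiff ℝ ∞ Q) (ρ : ℝ) (c : ℕ → ℝ) :
    ∃ e : ℕ → ℝ, ∀ (Z : Type) [NormedAddCommGroup Z] [NormedSpace ℝ Z] (f : Z → Y) (U : Set Z), IsOpen U →
      ContDiffOn ℝ ∞ f U → ∀ z ∈ U, ‖f z‖ ≤ ρ → (∀ j, 1 ≤ j → ‖iteratedFDeriv ℝ j f z‖ ≤ c j) →
      ∀ j, ‖iteratedFDeriv ℝ j (fun z => Q (f z)) z‖ ≤ e j := by
  have := FiniteDimensional.proper_real Y
  choose b hb using fun j : ℕ => (isCompact_closedBall (0 : Y) ρ).exists_bound_of_continuousOn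
    (hQ.continuous_iteratedFDeriv (m := j) (by exact_mod_cast le_top)).continuousOn
  refine ⟨fun n => n ! * (∑ i ∈ Finset.range (n + 1), |b i|) * (1 + ∑ i ∈ Finset.range (n + 1), |c i|) ^ n,
    fun Z _ _ f U hU hf z hz h0 h1 n => ?_⟩
  rw [← iteratedFDerivWithin_of_isOpen n hU hz]
  refine norm_iteratedFDerivWithin_comp_le (t := univ) hQ.contDiffOn hf (Ext.le_inf n) uniqueDiffOn_univ
    hU.uniqueDiffOn (mapsTo_univ _ _) hz (fun i hi => ?_) fun i i1 hi => ?_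
  · rw [iteratedFDerivWithin_univ]
    exact ((hb i _ (mem_closedBall_zero_iff.2 h0)).trans (le_abs_self _)).trans
      (Finset.single_le_sum (f := fun i => |b i|) (fun _ _ => abs_nonneg _) (Finset.mem_range_succ_iff.2 hi))
  · rw [iteratedFDerivWithin_of_isOpen i hU hz]
    have h2 : 0 ≤ ∑ i ∈ Finset.range (n + 1), |c i| := Finset.sum_nonneg fun _ _ => abs_nonneg _
    have h3 := ((h1 i i1).trans (le_abs_self _)).trans
      (Finset.single_le_sum (f := fun i => |c i|) (fun _ _ => abs_nonneg _) (Finset.mem_range_succ_iff.2 hi))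
    exact (h3.trans (by linarith)).trans (le_self_pow₀ (by linarith) (by omega))

/-- growth of a transported vector -/
theorem tr_le {E F : Type} [NormedAddCommGroup E] [NormedSpace ℝ E] [NormedAddCommGroup F] [NormedSpace ℝ F]
    {k : Cst} {T : ℕ} {ν : E → ℝ} {Φ : ℕ → E → E} {Lf : ℕ → Set E} {x : ℕ → ℝ → E}
    {A : ℕ → ℝ → F →L[ℝ] E} (hx : Crv k T ν Φ Lf x) (hA : Tr k T Φ x A) (τ : ℝ) {S S' : ℕ} (h : S ≤ S')
    (h' : S' ≤ T) (hb : ∀ i, S < i → i ≤ S' → x i τ ∈ ball (0 : E) k.R) (w : F) :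
    ‖A S τ w‖ ≤ Real.exp (k.Λ * (S' - S)) * ‖A S' τ w‖ ∧
      ‖A S' τ w‖ ≤ Real.exp (k.Λ * (S' - S)) * ‖A S τ w‖ := by
  induction S', h using Nat.le_induction with
  | base => simp
  | succ n hn ih =>
    obtain ⟨i1, i2⟩ := ih (by omega) fun i h1 h2 => hb i h1 (by omega)
    have hy := hb (n + 1) (by omega) le_rfl
    have e : Real.exp (k.Λ * ((n + 1 : ℕ) - S)) = Real.exp (k.Λ * (n - S)) * Real.exp k.Λ := by
      rw [← Real.exp_add]; congr 1; push_cast; ring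
    have e2 : A n τ w = fderiv ℝ (Φ n) (x (n + 1) τ) (A (n + 1) τ w) := by rw [hA.rel n h']; rfl
    rw [e]
    constructor
    · rw [mul_assoc]
      refine i1.trans (mul_le_mul_of_nonneg_left ?_ (Real.exp_pos _).le)
      rw [e2]
      exact (ContinuousLinearMap.le_opNorm _ _).trans
        (mul_le_mul_of_nonneg_right (hx.d1 n h' _ hy) (norm_nonneg _))
    · rw [mul_comm _ (Real.exp k.Λ), mul_assoc]
      refine (hx.low n h' _ hy _).trans (mul_le_mul_of_nonneg_left ?_ (Real.exp_pos _).le)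
      rw [← e2]; exact i2

open Real in
/-- among `N + 1` separated parameters one has `h x' - x` almost in the range of the frame -/
theorem ang_at (hG : GramS) (hR : GridS) (hA : ApS) (E G : Type) [NormedAddCommGroup E] [NormedSpace ℝ E]
    [FiniteDimensional ℝ E] [NormedAddCommGroup G] [NormedSpace ℝ G] [FiniteDimensional ℝ G] {k : Cst}
    (ok : k.Ok) {σ δ : ℝ} (σ0 : 0 < σ) (δ0 : 0 < δ) : ∃ (γ M : ℝ) (N T0 : ℕ), 0 < γ ∧ 1 ≤ M ∧ ∀ T, T0 ≤ T →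
    ∀ (ν : E → ℝ) (Φ Φ' : ℕ → E → E) (Lf Lf' : ℕ → Set E) (x x' : ℕ → ℝ → E) (A : ℕ → ℝ → G →L[ℝ] E)
      (h : E → E), Crv k T ν Φ Lf x → Crv k T ν Φ' Lf' x' → Tr k T Φ x A →
      (∀ τ ∈ Icc (0 : ℝ) 1, ∀ a, ‖a‖ ≤ k.K * ‖A T τ a‖) → ContDiffOn ℝ ∞ h (ball 0 k.R) →
      (∀ y ∈ ball (0 : E) k.R, ∀ j, 1 ≤ j → ‖iteratedFDeriv ℝ j h y‖ ≤ k.c j) →
      (∃ y ∈ ball (0 : E) k.R, h y ∈ ball (0 : E) k.R) → ∀ S : ℕ, σ * T ≤ S → S ≤ T → ∀ η : ℝ,
      (∀ τ ∈ Icc (0 : ℝ) k.τ0, ∃ a, ‖h (x' S τ) - x S τ - A S τ a‖ ≤ η) →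
      ∀ s : Finset ℝ, N < s.card → (∀ t ∈ s, t ∈ Icc (0 : ℝ) 1) →
        (∀ t ∈ s, ∀ t' ∈ s, t ≠ t' → exp (-(γ * T)) ≤ |t - t'|) →
        ∃ τ ∈ s, ∃ a, ‖h (x' S τ) - x S τ - A S τ a‖ ≤ M * exp (δ * T) * (η + k.D T ^ 2) := by
  have : CompleteSpace E := FiniteDimensional.complete ℝ E
  obtain ⟨g, Q, p, C, C1, sg, sQ, -, -, gn, up, lo, fl⟩ := hG E G
  have Λ0 := ok.Λ
  have c0 := ok.c1
  have K1 := ok.K
  have τ0 := ok.τ0
  obtain ⟨μ, μ0, hA⟩ := hA k ok σ σ0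
  have sV : ContDiff ℝ ∞ fun z : (E × E) × (G →L[ℝ] E × E) => ContinuousLinearMap.fst ℝ E E ∘L z.2 :=
    contDiff_const.clm_comp contDiff_snd
  have s1 : ContDiff ℝ ∞ fun z : (E × E) × (G →L[ℝ] E × E) => g (ContinuousLinearMap.fst ℝ E E ∘L z.2) :=
    sg.comp sV
  have s2 : ContDiff ℝ ∞ fun w : E × (E × E) × (G →L[ℝ] E × E) =>
      Q (ContinuousLinearMap.fst ℝ E E ∘L w.2.2, w.1 - w.2.1.1) :=
    sQ.comp ((sV.comp contDiff_snd).prodMk (contDiff_fst.sub contDiff_snd.fst.fst))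
  obtain ⟨e1, he1⟩ := jets s1
  obtain ⟨e2, he2⟩ := comp_jets s2 (1 + k.c 1 * 2) k.c
  obtain ⟨N, T1, hA⟩ := hA (p * μ + p * k.Λ + 2 * k.c1) (fun j => max (e1 j) (e2 j)) (by positivity)
  obtain ⟨T2, hT2⟩ := big k.c1 (2 * (N + 2) * (C * k.K ^ p)) c0
  have Kp : 1 ≤ k.K ^ p := one_le_pow₀ K1
  have CK : 1 ≤ C * k.K ^ p := one_le_mul_of_one_le_of_one_le C1 Kp
  have r0 : 0 ≤ (6 / k.τ0) ^ N := by positivity
  have m0 : 0 < min δ k.c1 := lt_min δ0 c0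
  refine ⟨min δ k.c1 / (N + 1), 4 * (N + 1) * (((6 / k.τ0) ^ N + 1) * (C * k.K ^ p)), N, max T1 T2,
    by positivity, one_le_mul_of_one_le_of_one_le (by linarith only [Nat.cast_nonneg (α := ℝ) N])
      (one_le_mul_of_one_le_of_one_le (by linarith only [r0]) CK),
    fun T hT ν Φ Φ' Lf Lf' x x' A h hx hx' hV hF sh jh ⟨y0, y1, y2⟩ S a1 a2 η hη s hs hI sep => ?_⟩
  obtain ⟨A', hA', eA⟩ := hV.prod hx hx'
  have hA := hA T (le_of_max_le_left hT) (E × E) G _ _ _ _ A' (hx.prod ok hx') hA'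
  have hu := hT2 T (le_of_max_le_right hT)
  have T0 : (0 : ℝ) ≤ T := Nat.cast_nonneg T
  have η0 : 0 ≤ η := by
    obtain ⟨a, ha⟩ := hη 0 ⟨le_rfl, τ0.le⟩
    exact (norm_nonneg _).trans ha
  obtain ⟨lam, hl⟩ : ∃ lam, lam = exp (-(μ * T)) := ⟨_, rfl⟩
  obtain ⟨D, hD⟩ : ∃ D, D = k.D T := ⟨_, rfl⟩
  obtain ⟨ρ, hρ⟩ : ∃ ρ, ρ = exp (-(min δ k.c1 / (N + 1) * T)) := ⟨_, rfl⟩
  rw [← hl] at hA
  rw [← hρ] at sep
  rw [← hD]
  have l0 : 0 < lam := hl ▸ exp_pos _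
  have D0 : 0 < D := hD ▸ exp_pos _
  have ρ0 : 0 < ρ := hρ ▸ exp_pos _
  have ρ1 : ρ ≤ 1 := hρ ▸ exp_le_one_iff.2 (neg_nonpos.2 (by positivity))
  have ρN : ∀ c, min δ k.c1 ≤ c → 1 ≤ ρ ^ N * exp (c * T) := fun c hc => by
    rw [hρ, ← exp_nat_mul, ← exp_add]
    refine one_le_exp ?_
    have : N * -(min δ k.c1 / (N + 1) * T) + c * T = (min δ k.c1 / (N + 1) + (c - min δ k.c1)) * T := by
      field_simp; ring
    rw [this]
    exact mul_nonneg (add_nonneg (by positivity) (sub_nonneg.2 hc)) T0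
  have Du : D * exp (k.c1 * T) = 1 := by rw [hD, Cst.D, ← exp_add, neg_add_cancel, exp_zero]
  have hb : ∀ t ∈ Icc (0 : ℝ) 1, ∀ i, S < i → i ≤ T →
      x i t ∈ ball (0 : E) k.R ∧ x' i t ∈ ball (0 : E) k.R := fun t ht i h1 h2 =>
    ball_prod.1 (ball_prod.1 (hA i (a1.trans (by exact_mod_cast h1.le)) h2 t ht).1).1
  have eV : ∀ t ∈ Icc (0 : ℝ) 1, ∀ a, (ContinuousLinearMap.fst ℝ E E ∘L (lam • A' S t)) a = A S t (lam • a) :=
    fun t ht a => by
      change (lam • A' S t a).1 = _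
      rw [eA S a2 t (hb t ht), map_smul]; rfl
  -- the inner map
  have hL : ‖ContinuousLinearMap.snd ℝ E E ∘L ContinuousLinearMap.fst ℝ (E × E) (G →L[ℝ] E × E)‖ ≤ 1 :=
    ContinuousLinearMap.opNorm_le_bound _ zero_le_one fun w => by
      rw [one_mul]; exact (norm_snd_le w.1).trans (norm_fst_le w)
  have mf : ∀ z ∈ ball (0 : (E × E) × (G →L[ℝ] E × E)) k.R, z.1.2 ∈ ball (0 : E) k.R := fun z hz =>
    (ball_prod.1 (ball_prod.1 hz).1).2
  have sg1 : ContDiffOn ℝ ∞ (fun z : (E × E) × (G →L[ℝ] E × E) => h z.1.2) (ball 0 k.R) :=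
    sh.comp contDiff_fst.snd.contDiffOn mf
  have sg2 : ContDiffOn ℝ ∞ (fun z : (E × E) × (G →L[ℝ] E × E) => (h z.1.2, z)) (ball 0 k.R) :=
    sg1.prodMk contDiffOn_id
  have s3 : ContDiffOn ℝ ∞ (fun z : (E × E) × (G →L[ℝ] E × E) =>
      Q (ContinuousLinearMap.fst ℝ E E ∘L z.2, h z.1.2 - z.1.1)) (ball 0 k.R) := s2.comp_contDiffOn sg2
  have j3 : ∀ z ∈ ball (0 : (E × E) × (G →L[ℝ] E × E)) k.R, ∀ j, ‖iteratedFDeriv ℝ j
      (fun z : (E × E) × (G →L[ℝ] E × E) =>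
        Q (ContinuousLinearMap.fst ℝ E E ∘L z.2, h z.1.2 - z.1.1)) z‖ ≤ e2 j := fun z hz => by
    refine he2 _ _ _ isOpen_ball sg2 z hz (max_le ?_ ?_) fun j j1 => ?_
    · have h1 := (convex_ball (0 : E) k.R).norm_image_sub_le_of_norm_fderiv_le
        (fun y hy => (sh.contDiffAt (isOpen_ball.mem_nhds hy)).differentiableAt (by simp))
        (fun y hy => norm_iteratedFDeriv_one (𝕜 := ℝ) (f := h) (x := y) ▸ jh y hy 1 le_rfl) y1 (mf z hz)
      have h2 : ‖z.1.2 - y0‖ ≤ 2 := (norm_sub_le _ _).trans (by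
        linarith only [mem_ball_zero_iff.1 y1, mem_ball_zero_iff.1 (mf z hz), ok.R1])
      have h3 := mul_le_mul_of_nonneg_left h2 (zero_le_one.trans (ok.c 1))
      have h4 := norm_le_insert' (h z.1.2) (h y0)
      linarith only [h1, h3, h4, mem_ball_zero_iff.1 y2, ok.R1]
    · linarith only [mem_ball_zero_iff.1 hz, ok.R1, ok.c 1]
    · rw [iteratedFDeriv_prodMk (sg1.contDiffAt (isOpen_ball.mem_nhds hz)) contDiffAt_fun_id (Ext.le_inf j),
        ContinuousMultilinearMap.opNorm_prod]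
      exact max_le ((jet_clm isOpen_ball sh _ hL (mf z hz) j).trans (jh _ (mf z hz) j j1))
        ((CmpP.jet_id z j1).trans (ok.c j))
  refine (good hR (V := E) (N := N) (s := s) (ρ := ρ) (l := k.τ0)
    (g := fun τ => g (ContinuousLinearMap.fst ℝ E E ∘L (lam • A' S τ)))
    (Q := fun τ => Q (ContinuousLinearMap.fst ℝ E E ∘L (lam • A' S τ), h (x' S τ) - x S τ))
    (ε := exp (-((p * μ + p * k.Λ + 2 * k.c1) * T))) (a := C * k.K ^ p * D ^ 2)
    (b := C * η) ρ0 ρ1 τ0 ok.τ1 (exp_pos _) (by positivity) (by positivity)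
    (fun t ht => (s1.contDiffAt.comp t (hA S a1 a2 t ht).2.1 :))
    (fun t ht => ((s3.contDiffAt (isOpen_ball.mem_nhds (hA S a1 a2 t ht).1)).comp t (hA S a1 a2 t ht).2.1 :))
    (fun t ht => ((hA S a1 a2 t ht).2.2 ℝ _ s1.contDiffOn fun z hz j _ =>
      (he1 j z (closedBall_subset_closedBall ok.R1 (ball_subset_closedBall hz))).trans (le_max_left _ _) :))
    (fun t ht => ((hA S a1 a2 t ht).2.2 E _ s3 fun z hz j _ => (j3 z hz j).trans (le_max_right _ _) :))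
    (fun t ht => ?_) (fun t ht => ?_) ?_ hs hI sep).elim fun τ ⟨hτ, g0, hQ⟩ => ?_
  · -- the floor
    have K0 : 0 < k.K := by positivity
    have h1 := fl (ContinuousLinearMap.fst ℝ E E ∘L (lam • A' S t)) (lam * exp (-(k.Λ * T)) / k.K)
      (by positivity) fun a => by
        have h2 := (hF t ht a).trans (mul_le_mul_of_nonneg_left
          (tr_le hx hV t a2 le_rfl (fun i h1 h2 => (hb t ht i h1 h2).1) a).2 K0.le)
        have h3 : exp (k.Λ * (T - S)) ≤ exp (k.Λ * T) :=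
          exp_le_exp.2 (mul_le_mul_of_nonneg_left (sub_le_self _ (Nat.cast_nonneg _)) Λ0.le)
        rw [eV t ht, map_smul, norm_smul_of_nonneg l0.le, exp_neg]
        have h4 := exp_pos (k.Λ * T)
        calc _ ≤ lam * (exp (k.Λ * T))⁻¹ / k.K * (k.K * (exp (k.Λ * T) * ‖A S t a‖)) := by
              gcongr
              exact h2.trans (by gcongr)
          _ = _ := by field_simp
    calc _ = (lam * exp (-(k.Λ * T)) / k.K) ^ p * (k.K ^ p * D ^ 2) := by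
          rw [div_pow, div_mul_eq_mul_div, mul_comm (k.K ^ p), ← mul_assoc, mul_div_cancel_right₀ _ (by positivity),
            hl, hD, Cst.D, ← exp_add, ← exp_nat_mul, ← exp_nat_mul, ← exp_add]
          congr 1
          push_cast
          ring
      _ ≤ C * g (ContinuousLinearMap.fst ℝ E E ∘L (lam • A' S t)) * (k.K ^ p * D ^ 2) := by gcongr
      _ = _ := by ring
  · -- the known part
    obtain ⟨a, ha⟩ := hη t ht
    have h2 := up (ContinuousLinearMap.fst ℝ E E ∘L (lam • A' S t)) (h (x' S t) - x S t) (lam⁻¹ • a)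
    have g0 := gn (ContinuousLinearMap.fst ℝ E E ∘L (lam • A' S t))
    rw [eV t ⟨ht.1, ht.2.trans ok.τ1⟩, smul_inv_smul₀ l0.ne'] at h2
    refine h2.trans ?_
    calc _ ≤ C * g (ContinuousLinearMap.fst ℝ E E ∘L (lam • A' S t)) * η := by gcongr
      _ = _ := by ring
  · refine le_of_mul_le_mul_right (le_trans ?_ (ρN _ (min_le_right _ _))) (exp_pos _)
    calc _ = 2 * (N + 2) * (C * k.K ^ p) * D * (D * exp (k.c1 * T)) := by ring
      _ ≤ exp (k.c1 * T) * D * (D * exp (k.c1 * T)) := by gcongr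
      _ = 1 := by rw [mul_comm _ D, Du, mul_one]
  · obtain ⟨a, ha⟩ := lo _ (h (x' S τ) - x S τ) g0
    rw [eV τ (hI τ hτ)] at ha
    refine ⟨τ, hτ, lam • a, ?_⟩
    have h1 := (mul_le_mul_of_nonneg_left ha (pow_pos ρ0 N).le).trans hQ
    rw [mul_left_comm, mul_comm _ (g _)] at h1
    have h2 := le_of_mul_le_mul_left h1 g0
    have h3 : C * η ≤ C * k.K ^ p * η := by
      rw [mul_assoc]; exact mul_le_mul_of_nonneg_left (le_mul_of_one_le_left η0 Kp) (by positivity)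
    have h4 : C * k.K ^ p * D ^ 2 ≤ C * k.K ^ p * η + C * k.K ^ p * D ^ 2 :=
      le_add_of_nonneg_left (by positivity)
    calc _ ≤ ρ ^ N * exp (δ * T) * ‖h (x' S τ) - x S τ - A S τ (lam • a)‖ :=
          le_mul_of_one_le_left (norm_nonneg _) (ρN _ (min_le_left _ _))
      _ = exp (δ * T) * (ρ ^ N * ‖h (x' S τ) - x S τ - A S τ (lam • a)‖) := by ring
      _ ≤ exp (δ * T) * (4 * (N + 1) * ((6 / k.τ0) ^ N * (C * k.K ^ p * η + C * k.K ^ p * D ^ 2) +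
          (C * k.K ^ p * η + C * k.K ^ p * D ^ 2))) := by
          refine mul_le_mul_of_nonneg_left (h2.trans ?_) (exp_pos _).le
          gcongr
      _ = _ := by ring

end AngP

open AngP Real in
theorem angF1 (hG : GramS) (hR : GridS) (hA : ApS) (hK : KnF) : AngF1 := by
  intro E G _ _ _ _ _ _ k ok σ δ σ0 δ0
  obtain ⟨C, C1, hK⟩ := hK k ok
  obtain ⟨γ, M, N, T1, γ0, M1, h⟩ := ang_at hG hR hA E G ok σ0 (half_pos δ0)
  obtain ⟨T2, hT2⟩ := big (δ / 2) (M * (C + 1)) (half_pos δ0)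
  refine ⟨γ, N, max T1 T2, γ0, fun T hT ν Φ Φ' H Lf Lf' x x' A hx hx' hF hL S a1 a2 t ht hI sep => ?_⟩
  have T0 : (0 : ℝ) ≤ T := Nat.cast_nonneg T
  have a3 : S ≤ T := by exact_mod_cast a2.trans (mul_le_of_le_one_left T0 ok.κ1)
  have z : (0 : ℝ) ∈ Icc (0 : ℝ) k.τ0 := ⟨le_rfl, ok.τ0.le⟩
  obtain ⟨τ, hτ, a, ha⟩ := h T (le_of_max_le_left hT) ν Φ Φ' Lf Lf' x x' A (H S) hx hx' hF.tr hF.floor
    (hL.sm S a2).1 (hL.sm S a2).2 ⟨_, (hx'.known 0 z S a3).1, hL.mem 0 z S a2⟩ S a1 a3 _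
    (fun τ hτ => ((hK T E G ν Φ Lf x A hx hF.tr).2 Φ' H Lf' x' hx' hL τ hτ S a2).2) t ht hI sep
  refine ⟨τ, hτ, a, ha.trans ?_⟩
  have h1 : 1 ≤ exp ((2 * k.Λ + 2) * S) := one_le_exp (by have := ok.Λ; positivity)
  have h2 := hT2 T (le_of_max_le_right hT)
  have h3 : k.D T ^ 2 ≤ exp ((2 * k.Λ + 2) * S) * k.D T ^ 2 := le_mul_of_one_le_left (sq_nonneg _) h1
  calc _ ≤ M * exp (δ / 2 * T) * (C * exp ((2 * k.Λ + 2) * S) * k.D T ^ 2 +
        exp ((2 * k.Λ + 2) * S) * k.D T ^ 2) := by gcongr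
    _ = M * (C + 1) * (exp (δ / 2 * T) * (exp ((2 * k.Λ + 2) * S) * k.D T ^ 2)) := by ring
    _ ≤ exp (δ / 2 * T) * (exp (δ / 2 * T) * (exp ((2 * k.Λ + 2) * S) * k.D T ^ 2)) := by gcongr
    _ = _ := by rw [← mul_assoc, ← exp_add, ← add_mul, add_halves, mul_assoc]

end Crest.Agent.N221.NC
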