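import Crest.Agent.N221.NC.Defs

/-! Row 221, block NC, N4: among `N + 1` separated parameters one has a small angle (helper32). -/

set_option autoImplicit false

open Set Metric
open scoped ContDiff Topology

noncomputable section

namespace Crest.Agent.N221.NC

namespace AngP

theorem jets {Z V : Type} [NormedAddCommGroup Z] [NormedSpace ℝ Z] [FiniteDimensional ℝ Z]
    [NormedAddCommGroup V] [NormedSpace ℝ V] {Γ : Z → V} (h : ContDiff ℝ ∞ Γ) :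
    ∃ e : ℕ → ℝ, ∀ j, ∀ z ∈ closedBall (0 : Z) 1, ‖iteratedFDeriv ℝ j Γ z‖ ≤ e j := by
  have := FiniteDimensional.proper_real Z
  choose e he using fun j : ℕ => (isCompact_closedBall (0 : Z) 1).exists_bound_of_continuousOn
    (h.continuous_iteratedFDeriv (m := j) (by exact_mod_cast le_top)).continuousOn
  exact ⟨e, he⟩

/-- one of the separated points has `g` comparable to its maximum -/
theorem good (hR : GridS) {V : Type} [NormedAddCommGroup V] [NormedSpace ℝ V] [CompleteSpace V]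
    {N : ℕ} {g : ℝ → ℝ} {Q : ℝ → V} {s : Finset ℝ} {ρ ε l a b : ℝ} (ρ0 : 0 < ρ) (ρ1 : ρ ≤ 1)
    (l0 : 0 < l) (l1 : l ≤ 1) (ε0 : 0 < ε) (a0 : 0 ≤ a) (b0 : 0 ≤ b)
    (sg : ∀ t ∈ Icc (0 : ℝ) 1, ContDiffAt ℝ ∞ g t) (sQ : ∀ t ∈ Icc (0 : ℝ) 1, ContDiffAt ℝ ∞ Q t)
    (dg : ∀ t ∈ Icc (0 : ℝ) 1, |iteratedDeriv (N + 1) g t| ≤ ε)
    (dQ : ∀ t ∈ Icc (0 : ℝ) 1, ‖iteratedDeriv (N + 1) Q t‖ ≤ ε)
    (fl : ∀ t ∈ Icc (0 : ℝ) 1, ε ≤ a * g t) (kn : ∀ t ∈ Icc (0 : ℝ) l, ‖Q t‖ ≤ b * g t)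
    (sm : 2 * (N + 2) * a ≤ ρ ^ N) (hs : N < s.card) (hI : ∀ t ∈ s, t ∈ Icc (0 : ℝ) 1)
    (sep : ∀ t ∈ s, ∀ t' ∈ s, t ≠ t' → ρ ≤ |t - t'|) :
    ∃ τ ∈ s, 0 < g τ ∧ ρ ^ N * ‖Q τ‖ ≤ 4 * (N + 1) * ((6 / l) ^ N * (b + a) + a) * g τ := by
  have g0 : ∀ t ∈ Icc (0 : ℝ) 1, 0 < g t := fun t ht =>
    lt_of_not_ge fun h => (ε0.trans_le (fl t ht)).not_ge (mul_nonpos_of_nonneg_of_nonpos a0 h)
  obtain ⟨t0, h0, hM⟩ := isCompact_Icc.exists_isMaxOn (nonempty_Icc.2 zero_le_one)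
    (fun t ht => (sg t ht).continuousAt.continuousWithinAt : ContinuousOn g (Icc 0 1))
  have hM' : ∀ t ∈ Icc (0 : ℝ) 1, g t ≤ g t0 := fun t ht => hM ht
  have M0 := g0 t0 h0
  have e1 := fl t0 h0
  have r0 : 0 < ρ ^ N := pow_pos ρ0 N
  have r1 : ρ ^ N ≤ 1 := pow_le_one₀ ρ0.le ρ1
  have hQ : ∀ t ∈ Icc (0 : ℝ) 1, ‖Q t‖ ≤ ((6 / l) ^ N * (b + a) + a) * g t0 := fun t ht => by
    refine (PS.rmS V N Q l (b * g t0) ε l0 l1 sQ (fun u hu => (kn u hu).trans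
      (mul_le_mul_of_nonneg_left (hM' u ⟨hu.1, hu.2.trans l1⟩) b0)) dQ t ht).trans ?_
    calc _ ≤ (6 / l) ^ N * (b * g t0 + a * g t0) + a * g t0 := by gcongr
      _ = _ := by ring
  by_contra hc
  push Not at hc
  obtain ⟨s', hs', hcard⟩ := Finset.exists_subset_card_eq (n := N + 1) (s := s) hs
  have N0 : (0 : ℝ) < N + 1 := by positivity
  have hG := hR N g s' ρ (ρ ^ N * g t0 / (4 * (N + 1))) ε ρ0 ρ1 sg dg hcard (fun t ht => ⟨hI t (hs' ht), ?_⟩)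
    (fun t ht t' ht' => sep t (hs' ht) t' (hs' ht')) t0 h0
  · rw [abs_of_pos M0] at hG
    have h1 : (N + 1) * (ρ ^ N * g t0 / (4 * (N + 1)) + ε) / ρ ^ N = g t0 / 4 + (N + 1) * ε / ρ ^ N := by
      field_simp
    have h2 : ε ≤ ε / ρ ^ N := by rw [le_div_iff₀ r0]; nlinarith
    have h3 : (N + 2) * (ε / ρ ^ N) ≤ g t0 / 2 := by
      rw [← mul_div_assoc, div_le_iff₀ r0]
      have : (N + 2) * ε ≤ (N + 2) * (a * g t0) := by gcongr
      nlinarith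
    rw [h1, mul_div_assoc] at hG
    linarith
  · have ht1 := hI t (hs' ht)
    have gt := g0 t ht1
    have h1 := hc t (hs' ht) gt
    have h2 := mul_le_mul_of_nonneg_left (hQ t ht1) r0.le
    rw [abs_of_pos gt, le_div_iff₀ (by positivity)]
    have c0 : 0 ≤ (6 / l) ^ N * (b + a) + a := by positivity
    generalize (6 / l) ^ N * (b + a) + a = c at *
    by_contra hn
    push Not at hn
    nlinarith [mul_le_mul_of_nonneg_left hn.le c0]

theorem big (c C : ℝ) (hc : 0 < c) : ∃ T0 : ℕ, ∀ T : ℕ, T0 ≤ T → C ≤ Real.exp (c * T) := by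
  obtain ⟨T0, h⟩ := exists_nat_ge (C / c)
  refine ⟨T0, fun T hT => ?_⟩
  have h1 : (T0 : ℝ) ≤ T := by exact_mod_cast hT
  rw [div_le_iff₀ hc] at h
  nlinarith [Real.add_one_le_exp (c * T)]

/-- the numerical end -/
theorem num {w y lam D u L ρ n r b c e d q v : ℝ} (w0 : 0 ≤ w) (g0 : 0 < y) (l0 : 0 < lam) (D0 : 0 < D)
    (u1 : 1 ≤ u) (L1 : 1 ≤ L) (r0 : 0 < ρ) (c1 : 0 ≤ b) (c2 : 0 ≤ c) (c3 : 0 ≤ r) (c4 : 0 ≤ n) (_ : 0 < e)
    (Du : D * u ^ 8 = 1) (ρu : 1 ≤ ρ * u) (Lu : L * L ≤ e * u) (ed : d * u ^ 4 = 1)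
    (h4 : n * (r * (b + c) + c) * e ≤ u) (ha : y * (lam * w) ≤ q)
    (hQ : ρ * q ≤ n * (r * (b * (lam * D ^ 2 * L) + c * (lam * D ^ 2)) + c * (lam * D ^ 2)) * y)
    (h1 : v ≤ L * w) : v ≤ D * d := by
  have h3 : ρ * w ≤ n * (r * (b + c) + c) * (D ^ 2 * L) := by
    refine le_of_mul_le_mul_left ?_ (mul_pos g0 l0)
    calc y * lam * (ρ * w) = ρ * (y * (lam * w)) := by ring
      _ ≤ n * (r * (b * (lam * D ^ 2 * L) + c * (lam * D ^ 2)) + c * (lam * D ^ 2)) * y :=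
        (mul_le_mul_of_nonneg_left ha r0.le).trans hQ
      _ ≤ n * (r * (b * (lam * D ^ 2 * L) + c * (lam * D ^ 2 * L)) + c * (lam * D ^ 2 * L)) * y := by
        have : lam * D ^ 2 ≤ lam * D ^ 2 * L := le_mul_of_one_le_right (by positivity) L1
        gcongr
      _ = _ := by ring
  have m0 : 0 ≤ n * (r * (b + c) + c) := by positivity
  generalize n * (r * (b + c) + c) = m at *
  have u0 : 0 < u := by positivity
  refine h1.trans (le_of_mul_le_mul_right ?_ (pow_pos u0 4))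
  rw [mul_assoc D, ed, mul_one]
  calc _ ≤ L * w * u ^ 4 * (ρ * u) := le_mul_of_one_le_right (by positivity) ρu
    _ = L * (ρ * w) * u ^ 5 := by ring
    _ ≤ L * (m * (D ^ 2 * L)) * u ^ 5 := by gcongr
    _ = m * (L * L) * (D ^ 2 * u ^ 5) := by ring
    _ ≤ m * (e * u) * (D ^ 2 * u ^ 5) := by gcongr
    _ = m * e * (D ^ 2 * u ^ 6) := by ring
    _ ≤ u * (D ^ 2 * u ^ 6) := by gcongr
    _ ≤ u * (D ^ 2 * u ^ 6) * u := le_mul_of_one_le_right (by positivity) u1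
    _ = D * (D * u ^ 8) := by ring
    _ = D := by rw [Du, mul_one]

end AngP

open AngP Real in
theorem angS (hG : GramS) (hR : GridS) (hA : ApS) (hK : KnS) : AngS := by
  intro E G _ _ _ _ _ _ k ok
  have : CompleteSpace E := FiniteDimensional.complete ℝ E
  obtain ⟨g, Q, p, C, C1, sg, sQ, -, -, gn, up, lo, fl⟩ := hG E G
  obtain ⟨Ck, -, hK⟩ := hK k ok
  have Λ0 := ok.Λ
  have c0 := ok.c1
  have K1 := ok.K
  have τ0 := ok.τ0
  obtain ⟨κ, κ0, κ1, κ2⟩ : ∃ κ : ℝ, 0 < κ ∧ κ ≤ 1 ∧ 16 * k.Λ * κ ≤ k.c1 :=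
    ⟨min (k.c1 / (16 * k.Λ)) 1, by positivity, min_le_right _ _, by
      rw [mul_comm, ← le_div_iff₀ (by positivity)]; exact min_le_left _ _⟩
  obtain ⟨μ, μ0, hA⟩ := hA k ok κ κ0
  have sV : ContDiff ℝ ∞ fun z : E × ((ℝ × G) →L[ℝ] E) => z.2 ∘L ContinuousLinearMap.inr ℝ ℝ G :=
    contDiff_snd.clm_comp contDiff_const
  have sU : ContDiff ℝ ∞ fun z : E × ((ℝ × G) →L[ℝ] E) => z.2 (1, 0) :=
    contDiff_snd.clm_apply contDiff_const
  have s1 : ContDiff ℝ ∞ fun z : E × ((ℝ × G) →L[ℝ] E) => g (z.2 ∘L ContinuousLinearMap.inr ℝ ℝ G) :=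
    sg.comp sV
  have s2 : ContDiff ℝ ∞ fun z : E × ((ℝ × G) →L[ℝ] E) =>
      Q (z.2 ∘L ContinuousLinearMap.inr ℝ ℝ G, z.2 (1, 0)) := sQ.comp (sV.prodMk sU)
  obtain ⟨e1, he1⟩ := jets s1
  obtain ⟨e2, he2⟩ := jets s2
  obtain ⟨N, T1, hA⟩ := hA ((p + 1) * μ + p * k.Λ + 2 * k.c1) (fun j => max (e1 j) (e2 j)) (by positivity)
  obtain ⟨T2, hT2⟩ := big (k.c1 / 8) (2 * (N + 2) * (C * k.K ^ p) + 4 * (N + 1) *
    ((6 / k.τ0) ^ N * (C * k.K + C * k.K ^ p) + C * k.K ^ p) * exp (2 * k.Λ)) (by positivity)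
  refine ⟨κ, k.c1 / (8 * (N + 1)), N, max T1 T2, κ0, by positivity,
    fun T hT ν Φ Lf x A hx hV s hs hI sep => ?_⟩
  have hA := hA T (le_of_max_le_left hT) E (ℝ × G) ν Φ Lf x A hx hV.tr
  have hK := (hK T E G ν Φ Lf x A hx hV).1
  have hu := hT2 T (le_of_max_le_right hT)
  have T0 : (0 : ℝ) ≤ T := Nat.cast_nonneg T
  obtain ⟨S1, a1, a2, a3⟩ : ∃ S1 : ℕ, κ * T ≤ S1 ∧ S1 ≤ T ∧ (S1 : ℝ) ≤ κ * T + 1 :=
    ⟨⌈κ * T⌉₊, Nat.le_ceil _, Nat.ceil_le.2 (mul_le_of_le_one_left T0 κ1),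
      (Nat.ceil_lt_add_one (by positivity)).le⟩
  have bl : ball (0 : E × ((ℝ × G) →L[ℝ] E)) k.R ⊆ closedBall 0 1 :=
    ball_subset_closedBall.trans (closedBall_subset_closedBall ok.R1)
  obtain ⟨lam, hl⟩ : ∃ lam, lam = exp (-(μ * T)) := ⟨_, rfl⟩
  obtain ⟨D, hD⟩ : ∃ D, D = k.D T := ⟨_, rfl⟩
  obtain ⟨u, hu'⟩ : ∃ u, u = exp (k.c1 / 8 * T) := ⟨_, rfl⟩
  obtain ⟨L, hL⟩ : ∃ L, L = exp (k.Λ * S1) := ⟨_, rfl⟩
  obtain ⟨ρ, hρ⟩ : ∃ ρ, ρ = exp (-(k.c1 / (8 * (N + 1)) * T)) := ⟨_, rfl⟩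
  rw [← hl] at hA
  rw [← hu'] at hu
  rw [← hρ] at sep
  rw [← hD]
  have l0 : 0 < lam := hl ▸ exp_pos _
  have l1 : lam ≤ 1 := hl ▸ exp_le_one_iff.2 (neg_nonpos.2 (by positivity))
  have D0 : 0 < D := hD ▸ exp_pos _
  have u1 : 1 ≤ u := hu' ▸ one_le_exp (by positivity)
  have L1 : 1 ≤ L := hL ▸ one_le_exp (by positivity)
  have ρ0 : 0 < ρ := hρ ▸ exp_pos _
  have ρ1 : ρ ≤ 1 := hρ ▸ exp_le_one_iff.2 (neg_nonpos.2 (by positivity))
  have Du : D * u ^ 8 = 1 := by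
    rw [hD, hu', Cst.D, ← exp_nat_mul, ← exp_add, exp_eq_one_iff]; push_cast; ring
  have ρu : 1 ≤ ρ ^ N * u := by
    rw [hρ, hu', ← exp_nat_mul, ← exp_add]
    refine one_le_exp ?_
    have : N * -(k.c1 / (8 * (N + 1)) * T) + k.c1 / 8 * T = k.c1 / (8 * (N + 1)) * T := by
      field_simp; ring
    rw [this]; positivity
  have Lu : L * L ≤ exp (2 * k.Λ) * u := by
    rw [hL, hu', ← exp_add, ← exp_add, exp_le_exp]
    linarith only [mul_le_mul_of_nonneg_left a3 Λ0.le, mul_le_mul_of_nonneg_right κ2 T0]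
  have ed : exp (-(k.c1 / 2 * T)) * u ^ 4 = 1 := by
    rw [hu', ← exp_nat_mul, ← exp_add, exp_eq_one_iff]; push_cast; ring
  have ew : ∀ (B : (ℝ × G) →L[ℝ] E) (a : G), ‖(lam • B) (1, 0) -
      ((lam • B) ∘L ContinuousLinearMap.inr ℝ ℝ G) a‖ = lam * ‖B ((1, 0) - (0, a))‖ := fun B a => by
    rw [map_sub, ← norm_smul_of_nonneg l0.le, smul_sub]; rfl
  have D1 : D * u ≤ 1 := by
    rw [← Du]; exact mul_le_mul_of_nonneg_left (le_self_pow₀ u1 (by norm_num)) D0.le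
  have D2 : D ≤ 1 := (le_mul_of_one_le_right D0.le u1).trans D1
  refine (good hR (V := E) (N := N) (s := s) (ρ := ρ) (l := k.τ0)
    (g := fun τ => g ((lam • A S1 τ) ∘L ContinuousLinearMap.inr ℝ ℝ G))
    (Q := fun τ => Q ((lam • A S1 τ) ∘L ContinuousLinearMap.inr ℝ ℝ G, (lam • A S1 τ) (1, 0)))
    (ε := exp (-(((p + 1) * μ + p * k.Λ + 2 * k.c1) * T))) (a := C * k.K ^ p * (lam * D ^ 2))
    (b := C * k.K * (lam * D ^ 2 * L)) ρ0 ρ1 τ0 ok.τ1 (exp_pos _) (by positivity) (by positivity)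
    (fun t ht => (s1.contDiffAt.comp t (hA S1 a1 a2 t ht).2.1 :))
    (fun t ht => (s2.contDiffAt.comp t (hA S1 a1 a2 t ht).2.1 :))
    (fun t ht => ((hA S1 a1 a2 t ht).2.2 ℝ _ s1.contDiffOn fun z hz j _ =>
      (he1 j z (bl hz)).trans (le_max_left _ _) :))
    (fun t ht => ((hA S1 a1 a2 t ht).2.2 E _ s2.contDiffOn fun z hz j _ =>
      (he2 j z (bl hz)).trans (le_max_right _ _) :))
    (fun t ht => ?_) (fun t ht => ?_) ?_ hs hI sep).elim fun τ ⟨hτ, g0, hQ⟩ => ?_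
  rotate_right
  · refine ⟨τ, hτ, fun S hS hb => ?_⟩
    obtain ⟨a, ha⟩ := lo _ ((lam • A S1 τ) (1, 0)) g0
    have hS1 : S ≤ S1 := by exact_mod_cast hS.trans a1
    have h1 := (hK τ S S1 hS1 a2 (fun i h1 h2 => hb i h1 (h2.trans a2)) ((1, 0) - (0, a))).1
    refine ⟨a, ?_⟩
    rw [ew] at ha
    rw [← map_sub]
    have h2 : exp (k.Λ * (S1 - S)) ≤ L :=
      hL ▸ exp_le_exp.2 (mul_le_mul_of_nonneg_left (sub_le_self _ (Nat.cast_nonneg _)) Λ0.le)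
    exact num (n := 4 * (N + 1)) (b := C * k.K) (c := C * k.K ^ p) (norm_nonneg _) g0 l0 D0 u1 L1 (pow_pos ρ0 N)
      (by positivity) (by positivity) (by positivity) (by positivity) (exp_pos _) Du ρu Lu ed
      (le_trans (le_add_of_nonneg_left (by positivity)) hu) ha hQ
      (h1.trans (mul_le_mul_of_nonneg_right h2 (norm_nonneg _)))
  · -- the floor
    have hb : ∀ i, S1 < i → i ≤ T → x i t ∈ ball (0 : E) k.R := fun i h1 h2 => by
      have := (hA i (a1.trans (by exact_mod_cast h1.le)) h2 t ht).1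
      rw [mem_ball_zero_iff] at this ⊢
      exact (norm_fst_le (x i t, lam • A i t)).trans_lt this
    have K0 : 0 < k.K := by positivity
    have h1 := fl ((lam • A S1 t) ∘L ContinuousLinearMap.inr ℝ ℝ G) (lam * exp (-(k.Λ * T)) / k.K)
      (by positivity) fun a => by
        have h2 := (hV.floor t ht a).trans
          (mul_le_mul_of_nonneg_left (hK t S1 T a2 le_rfl hb (0, a)).2 K0.le)
        have h3 : exp (k.Λ * (T - S1)) ≤ exp (k.Λ * T) :=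
          exp_le_exp.2 (mul_le_mul_of_nonneg_left (sub_le_self _ (Nat.cast_nonneg _)) Λ0.le)
        change _ ≤ ‖lam • A S1 t (0, a)‖
        rw [norm_smul_of_nonneg l0.le, exp_neg]
        have h4 := exp_pos (k.Λ * T)
        calc _ ≤ lam * (exp (k.Λ * T))⁻¹ / k.K * (k.K * (exp (k.Λ * T) * ‖A S1 t (0, a)‖)) := by
              gcongr
              exact h2.trans (by gcongr)
          _ = _ := by field_simp
    calc _ = (lam * exp (-(k.Λ * T)) / k.K) ^ p * (k.K ^ p * (lam * D ^ 2)) := by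
          rw [div_pow, div_mul_eq_mul_div, mul_comm (k.K ^ p), ← mul_assoc, mul_div_cancel_right₀ _ (by positivity),
            hl, hD, Cst.D, ← exp_add, ← exp_nat_mul, ← exp_nat_mul, ← exp_add, ← exp_add]
          congr 1
          push_cast
          ring
      _ ≤ C * g ((lam • A S1 t) ∘L ContinuousLinearMap.inr ℝ ℝ G) * (k.K ^ p * (lam * D ^ 2)) := by gcongr
      _ = _ := by ring
  · -- the known part
    obtain ⟨a, ha⟩ := (hV.known t ht).2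
    have h1 := (hK t 0 S1 (Nat.zero_le _) a2 (fun i _ h2 => (hx.known t ht i (h2.trans a2)).1)
      ((1, 0) - (0, a))).2
    rw [Nat.cast_zero, sub_zero, ← hL] at h1
    rw [← map_sub, ← hD] at ha
    have h2 := up ((lam • A S1 t) ∘L ContinuousLinearMap.inr ℝ ℝ G) ((lam • A S1 t) (1, 0)) a
    have g0 := gn ((lam • A S1 t) ∘L ContinuousLinearMap.inr ℝ ℝ G)
    rw [ew] at h2
    refine h2.trans ?_
    calc _ ≤ C * g ((lam • A S1 t) ∘L ContinuousLinearMap.inr ℝ ℝ G) * (lam * (L * (k.K * D ^ 2))) := by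
          gcongr
          exact h1.trans (by gcongr)
      _ = _ := by ring
  · have c4 : 0 ≤ 4 * (N + 1) * ((6 / k.τ0) ^ N * (C * k.K + C * k.K ^ p) + C * k.K ^ p) * exp (2 * k.Λ) := by
      positivity
    have u0 : 0 < u := by positivity
    refine le_of_mul_le_mul_right (le_trans ?_ ρu) u0
    calc _ = 2 * (N + 2) * (C * k.K ^ p) * (lam * D ^ 2 * u) := by ring
      _ ≤ u * (1 * D ^ 2 * u) := by gcongr; linarith only [hu, c4]
      _ = (D * u) ^ 2 := by ring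
      _ ≤ 1 := pow_le_one₀ (by positivity) D1

end Crest.Agent.N221.NC
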