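import Crest.Agent.N221.NC.Fd
import Crest.Agent.N221.NC.Prod
import Crest.Agent.N221.NC.Ang

/-! Row 221, block NC (helper28): the small angle is moved from level `S₁` to all lower levels. -/

set_option autoImplicit false

open Set Metric
open scoped ContDiff Topology

noncomputable section

namespace Crest.Agent.N221.NC

namespace AngG

lemma num {D u e C c L w v R : ℝ} (D0 : 0 < D) (u1 : 1 ≤ u) (Du : D * u ^ 8 = 1) (e1 : 1 ≤ e)
    (C1 : 1 ≤ C) (c1 : 1 ≤ c) (_ : 0 ≤ L) (Le : L ≤ e) (eu : e ^ 14 ≤ u ^ 2) (hC : 2 * c * C ^ 2 ≤ u)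
    (hR : 4 * C ≤ R * u) (w0 : 0 ≤ w) (hw : w ≤ C * e ^ 2 * D) (hv : v ≤ u * e ^ 2 * D ^ 2) :
    e * w < R / 2 ∧ (e * v + c * L * (e * w) ^ 2) * u ^ 4 ≤ D := by
  have u0 : 0 < u := by linarith
  have e0 : 0 < e := by linarith
  have e7 : e ^ 7 ≤ u := by
    refine (pow_le_pow_iff_left₀ (by positivity) u0.le two_ne_zero).1 ?_
    rw [← pow_mul]; exact eu
  have e3 : e ^ 3 ≤ u := (pow_le_pow_right₀ e1 (by norm_num)).trans e7
  have D2 : D * u ^ 2 ≤ 1 := by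
    rw [← Du]; exact mul_le_mul_of_nonneg_left (pow_le_pow_right₀ u1 (by norm_num)) D0.le
  have h1 : e * w ≤ C * e ^ 3 * D := by
    calc e * w ≤ e * (C * e ^ 2 * D) := by gcongr
      _ = _ := by ring
  constructor
  · have h2 : C * e ^ 3 * D * u ≤ C := by
      calc C * e ^ 3 * D * u ≤ C * u * D * u := by gcongr
        _ = C * (D * u ^ 2) := by ring
        _ ≤ C * 1 := by gcongr
        _ = C := mul_one C
    have h3 : e * w * u ≤ C := (mul_le_mul_of_nonneg_right h1 u0.le).trans h2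
    refine lt_of_mul_lt_mul_right ?_ u0.le
    linarith
  · have h2 : e * v ≤ u ^ 2 * D ^ 2 := by
      calc e * v ≤ e * (u * e ^ 2 * D ^ 2) := by gcongr
        _ = u * e ^ 3 * D ^ 2 := by ring
        _ ≤ u * u * D ^ 2 := by gcongr
        _ = _ := by ring
    have h3 : 2 * (c * L * (e * w) ^ 2) ≤ u ^ 2 * D ^ 2 := by
      calc 2 * (c * L * (e * w) ^ 2) ≤ 2 * (c * e * (C * e ^ 3 * D) ^ 2) := by gcongr
        _ = 2 * c * C ^ 2 * e ^ 7 * D ^ 2 := by ring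
        _ ≤ u * u * D ^ 2 := by gcongr
        _ = _ := by ring
    have u2 : 2 ≤ u := by nlinarith
    have h4 : 0 ≤ u ^ 2 * D ^ 2 := by positivity
    calc (e * v + c * L * (e * w) ^ 2) * u ^ 4 ≤ (2 * (u ^ 2 * D ^ 2)) * u ^ 4 := by
          gcongr; linarith
      _ ≤ (u * (u ^ 2 * D ^ 2)) * u ^ 4 * u := by
          refine le_trans ?_ (le_mul_of_one_le_right (by positivity) u1); gcongr
      _ = D * (D * u ^ 8) := by ring
      _ = D := by rw [Du, mul_one]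

end AngG

open AngG Real in
theorem angF (h1 : AngF1) (hC : CmpF) : AngF := by
  intro E G _ _ _ _ _ _ k ok
  have : CompleteSpace E := FiniteDimensional.complete ℝ E
  have Λ0 := ok.Λ
  have c0 := ok.c1
  have κ0 := ok.κ0
  have R0 := ok.R
  obtain ⟨s, s0, s1, s2⟩ : ∃ s : ℝ, 0 < s ∧ 2 * s ≤ k.κ0 ∧ 112 * (k.Λ + 1) * s ≤ k.c1 := by
    refine ⟨min (k.κ0 / 2) (k.c1 / (112 * (k.Λ + 1))), by positivity,
      by linarith [min_le_left (k.κ0 / 2) (k.c1 / (112 * (k.Λ + 1)))], ?_⟩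
    rw [mul_comm, ← le_div_iff₀ (by positivity)]; exact min_le_right _ _
  obtain ⟨γ, N, T1, γ0, h1⟩ := h1 E G k ok s (k.c1 / 8) s0 (by positivity)
  obtain ⟨C, C1, T2, hC⟩ := hC k ok s s0
  obtain ⟨T3, h3⟩ := AngP.big (k.c1 / 8) (2 * k.c 2 * C ^ 2 + 4 * C / k.R) (by positivity)
  obtain ⟨T4, h4⟩ := exists_nat_ge (1 / s)
  refine ⟨s, γ, N, max (max T1 T2) (max T3 T4), s0, γ0,
    fun T hT ν Φ Φ' H Lf Lf' x x' A hx hx' hA hL t ht hI sep => ?_⟩
  simp only [max_le_iff] at hT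
  obtain ⟨⟨t1, t2⟩, t3, t4⟩ := hT
  have T0 : (0 : ℝ) ≤ T := Nat.cast_nonneg T
  have sT : 1 ≤ s * T := by
    rw [div_le_iff₀ s0] at h4
    have : (T4 : ℝ) ≤ T := by exact_mod_cast t4
    nlinarith
  obtain ⟨S1, a1, a3⟩ : ∃ S1 : ℕ, s * T ≤ S1 ∧ (S1 : ℝ) ≤ s * T + 1 :=
    ⟨⌈s * T⌉₊, Nat.le_ceil _, (Nat.ceil_lt_add_one (by positivity)).le⟩
  have a4 : (S1 : ℝ) ≤ k.κ0 * T := by linarith [mul_le_mul_of_nonneg_right s1 T0]
  have a2 : S1 ≤ T := by
    have := mul_le_mul_of_nonneg_right ok.κ1 T0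
    exact_mod_cast (a4.trans (by linarith) : (S1 : ℝ) ≤ T)
  obtain ⟨τ, hτ, a, ha⟩ := h1 T t1 ν Φ Φ' H Lf Lf' x x' A hx hx' hA hL S1 a1 a4 t ht hI sep
  have hw := hC T t2 E G ν Φ Φ' H Lf Lf' x x' A hx hx' hL S1 a1 a4 τ (hI τ hτ)
  refine ⟨τ, hτ, fun S hS hb => ⟨a, ?_⟩⟩
  have hS1 : S ≤ S1 := by exact_mod_cast hS.trans a1
  obtain ⟨L, rfl⟩ := Nat.exists_eq_add_of_le hS1
  set e := exp ((k.Λ + 1) * (S + L : ℕ)) with he
  set u := exp (k.c1 / 8 * T) with hu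
  have n0 : (0 : ℝ) ≤ (S + L : ℕ) := Nat.cast_nonneg _
  have LS : (L : ℝ) ≤ (S + L : ℕ) := by exact_mod_cast Nat.le_add_left L S
  have e2 : exp ((2 * k.Λ + 2) * (S + L : ℕ)) = e ^ 2 := by
    rw [he, ← exp_nat_mul]; congr 1; push_cast; ring
  rw [e2] at ha hw
  have hc := ok.c 2
  have q1 : 0 ≤ 4 * C / k.R := by positivity
  have q2 : 0 ≤ 2 * k.c 2 * C ^ 2 := by positivity
  have q3 := h3 T t3
  obtain ⟨n1, n2⟩ := num (D := k.D T) (u := u) (e := e) (c := k.c 2) (L := L) (R := k.R)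
    (exp_pos _) (one_le_exp (by positivity))
    (by rw [hu, Cst.D, ← exp_nat_mul, ← exp_add, exp_eq_one_iff]; push_cast; ring)
    (one_le_exp (by positivity)) C1 hc (Nat.cast_nonneg L)
    (by
      have := add_one_le_exp ((k.Λ + 1) * (S + L : ℕ))
      nlinarith [mul_nonneg Λ0.le n0])
    (by
      rw [he, hu, ← exp_nat_mul, ← exp_nat_mul, exp_le_exp]
      have b1 := mul_le_mul_of_nonneg_left (a3.trans (by linarith : s * T + 1 ≤ 2 * (s * T)))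
        (show 0 ≤ k.Λ + 1 by linarith)
      have b2 := mul_le_mul_of_nonneg_right s2 T0
      rw [Nat.cast_ofNat, Nat.cast_ofNat]
      linarith)
    (by linarith) (by rw [mul_comm k.R, ← div_le_iff₀ R0]; linarith) (norm_nonneg _) hw ha
  have eL : exp (k.Λ * L) ≤ e := exp_le_exp.2 (by
    nlinarith [mul_le_mul_of_nonneg_left LS Λ0.le])
  have hd := (mul_le_mul_of_nonneg_right eL (norm_nonneg _)).trans_lt n1
  have inb : ∀ i, S ≤ i → i ≤ T → x' i τ ∈ ball (0 : E) k.R := fun i b1 b2 =>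
    mem_ball_zero_iff.2 ((hb i b1 b2).2.trans_lt (half_lt_self R0))
  have tr := (hx.transfer ok hA.tr τ (fun i => H i (x' i τ)) a L S a2
    (fun i b1 b2 b3 => hL.rel τ (hI τ hτ) i
      (le_trans (by exact_mod_cast b2) a4) (inb _ (by omega) (by omega)) (inb _ b1 (by omega)) b3)
    (fun i b1 b2 => (hb i b1.le (b2.trans a2)).1) hd).2
  have ed : exp (-(k.c1 / 2 * T)) * u ^ 4 = 1 := by
    rw [hu, ← exp_nat_mul, ← exp_add, exp_eq_one_iff]; push_cast; ring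
  refine tr.trans (le_of_mul_le_mul_right ?_ (pow_pos (exp_pos (k.c1 / 8 * T)) 4))
  rw [mul_assoc (k.D T), ed, mul_one]
  refine le_trans ?_ n2
  gcongr

end Crest.Agent.N221.NC
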