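import Crest.Agent.N221.NC.Defs

/-! Row 221, block NC: the state `(x, λ A)` is almost polynomial (helper3). -/

set_option autoImplicit false

open Set Metric Filter
open scoped ContDiff Topology

noncomputable section

namespace Crest.Agent.N221.NC

theorem apS (hE : EscS) (hX : ExtS) : ApS := by
  intro k hk s hs
  obtain ⟨g', g0, T1, hT1⟩ := hE k hk s hs
  obtain ⟨c', hc'⟩ := hX k.c hk.c
  have hΛ := hk.Λ
  have hα := hk.α
  have d0 := hk.d 0
  refine ⟨k.α + k.Λ + g', by positivity, fun β e hβ => ?_⟩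
  set g := min (g' / 2) k.g
  have g1 : g ≤ g' / 2 := min_le_left _ _
  have g2 : g ≤ k.g := min_le_right _ _
  have g3 : 0 < g := lt_min (half_pos g0) hk.g
  obtain ⟨N, hN⟩ := PS.cl k.R (max 0 (c' 1)) g 0 β (1 + k.d 0) (fun j => max (c' j) (e j)) k.d hk.R
    (le_max_left _ _) g3 le_rfl hβ
  obtain ⟨T2, hT2⟩ := hN (N + 1) N.le_succ
  have lim : Tendsto (fun T : ℕ => (1 + k.d 0) * Real.exp (-(g' * T))) atTop (𝓝 0) := by
    simpa using (Real.tendsto_exp_neg_atTop_nhds_zero.comp
      (tendsto_natCast_atTop_atTop.const_mul_atTop g0)).const_mul (1 + k.d 0)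
  obtain ⟨T3, hT3⟩ := eventually_atTop.1 (lim.eventually (gt_mem_nhds hk.R))
  refine ⟨N, max T1 (max T2 T3), fun T hT E F _ _ _ _ _ ν Φ Lf x A hC hA => ?_⟩
  simp only [max_le_iff] at hT
  have T0 : (0 : ℝ) ≤ T := T.cast_nonneg
  have esc := hT1 T hT.1 E ν Φ Lf x hC
  have sm := hT3 T hT.2.2
  have e0 := Real.exp_pos (-(g' * T))
  set l := Real.exp (-((k.α + k.Λ + g') * T)) with hl
  have l0 : 0 < l := Real.exp_pos _
  have hAn : ∀ τ ∈ Icc (0 : ℝ) 1, ∀ n S : ℕ, S + n = T → s * T ≤ S →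
      ‖A S τ‖ ≤ Real.exp k.Λ ^ n * (k.d 0 * Real.exp (k.α * T)) := fun τ hτ n => by
    induction n with
    | zero =>
      rintro S rfl -
      simpa using (hA.top τ hτ).2 0
    | succ n ih =>
      intro S h1 h2
      have h3 : s * T ≤ (S + 1 : ℕ) := by push_cast; linarith
      rw [hA.rel S (by omega), pow_succ', mul_assoc]
      refine (ContinuousLinearMap.opNorm_comp_le _ _).trans (mul_le_mul (hC.d1 S (by omega) _ ?_)
        (ih _ (by omega) h3) (norm_nonneg _) (Real.exp_pos _).le)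
      rw [mem_ball_zero_iff]
      nlinarith [esc _ h3 (by omega) τ hτ]
  have hn : ∀ S : ℕ, s * T ≤ S → S ≤ T → ∀ τ ∈ Icc (0 : ℝ) 1,
      ‖(x S τ, l • A S τ)‖ ≤ (1 + k.d 0) * Real.exp (-(g' * T)) := fun S h1 h2 τ hτ => by
    refine max_le (by nlinarith [esc S h1 h2 τ hτ]) ?_
    rw [norm_smul, Real.norm_of_nonneg l0.le]
    calc l * ‖A S τ‖ ≤ l * (Real.exp k.Λ ^ T * (k.d 0 * Real.exp (k.α * T))) := by
          refine mul_le_mul_of_nonneg_left ((hAn τ hτ (T - S) S (by omega) h1).trans ?_) l0.le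
          gcongr
          exacts [Real.one_le_exp hΛ.le, Nat.sub_le _ _]
      _ = k.d 0 * Real.exp (-(g' * T)) := by
          rw [hl, ← Real.exp_nat_mul, mul_left_comm _ (k.d 0), mul_left_comm, ← Real.exp_add,
            ← Real.exp_add]
          congr 2
          ring
      _ ≤ _ := by gcongr; linarith
  have main := fun (V : Type) [NormedAddCommGroup V] [NormedSpace ℝ V] =>
    hT2 (E × (F →L[ℝ] E)) V ⌈s * T⌉₊ T (fun S z => (Φ S z.1, fderiv ℝ (Φ S) z.1 ∘L z.2))
      (fun S τ => (x S τ, l • A S τ)) hT.2.1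
      (fun S _ h => by
        obtain ⟨h1, h2⟩ := hc' E F (Φ S) k.R hk.R1 (hC.sm S h) (hC.dj S h)
        exact ⟨h1, fun y hy => ⟨(norm_iteratedFDeriv_one _).symm.trans_le ((h2 y hy 1 le_rfl).trans
          (le_max_right _ _)), fun j hj => (h2 y hy j hj).trans (le_max_left _ _)⟩⟩)
      (fun S _ h τ _ => .of_forall fun t => by
        simp only [Function.comp, hC.rel S h, hA.rel S h, ContinuousLinearMap.comp_smul])
      (fun τ hτ => (hC.top τ hτ).1.prodMk ((hA.top τ hτ).1.const_smul l))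
      (fun S h1 h2 τ hτ => (hn S (Nat.ceil_le.1 h1) h2 τ hτ).trans (by gcongr; linarith))
      (fun j hj τ hτ => by
        have h1 : Real.exp (-(k.g * T)) ^ j ≤ Real.exp (-(g * T)) ^ Nat.log 2 j :=
          (pow_le_pow_left₀ (Real.exp_pos _).le (by gcongr) j).trans (pow_le_pow_of_le_one
            (Real.exp_pos _).le (Real.exp_le_one_iff.2 (neg_nonpos.2 (by positivity)))
            (Nat.log_le_self _ _))
        have dj := hk.d j
        rw [zero_mul, Real.exp_zero, mul_one, ← norm_iteratedFDeriv_eq_norm_iteratedDeriv,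
          iteratedFDeriv_prodMk (hC.top τ hτ).1 ((hA.top τ hτ).1.const_smul l) (mod_cast le_top),
          ContinuousMultilinearMap.opNorm_prod, norm_iteratedFDeriv_eq_norm_iteratedDeriv,
          norm_iteratedFDeriv_eq_norm_iteratedDeriv, iteratedDeriv_fun_const_smul_field, norm_smul,
          Real.norm_of_nonneg l0.le]
        refine max_le (((hC.top τ hτ).2.2.2 j hj).trans (by gcongr)) ?_
        have h2 : l * Real.exp (k.α * T) ≤ 1 := by
          rw [hl, ← Real.exp_add, Real.exp_le_one_iff]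
          nlinarith
        calc _ ≤ l * (k.d j * Real.exp (k.α * T) * Real.exp (-(g * T)) ^ Nat.log 2 j) :=
              mul_le_mul_of_nonneg_left (((hA.top τ hτ).2 j).trans (by gcongr)) l0.le
          _ = l * Real.exp (k.α * T) * (k.d j * Real.exp (-(g * T)) ^ Nat.log 2 j) := by ring
          _ ≤ _ := mul_le_of_le_one_left (by positivity) h2)
  intro S h1 h2 τ hτ
  exact ⟨mem_ball_zero_iff.2 ((hn S h1 h2 τ hτ).trans_lt sm),
    (main ℝ S (Nat.ceil_le.2 h1) h2 τ hτ).1, fun V _ _ Γ hΓ hb =>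
      (main V S (Nat.ceil_le.2 h1) h2 τ hτ).2.2 Γ hΓ fun y hy j hj =>
        (hb y hy j hj).trans (le_max_right _ _)⟩

end Crest.Agent.N221.NC
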