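import Crest.Agent.N221.NC.CmpF
import Crest.Agent.N221.NC.Fd

/-! Row 221, block NC, leaf `CmpF` (helper40): comparison of two nodes (no variation). -/

set_option autoImplicit false

open Set Metric
open scoped ContDiff Topology

noncomputable section

namespace Crest.Agent.N221.NC

open CmpP

theorem cmpF' (hA : ApS) : CmpF := by
  intro k hk s hs
  obtain ⟨M, hM, T0, h⟩ := rem_diff hA hk hs
  have K1 := hk.K
  refine ⟨M * (k.K + 1), by nlinarith, T0, fun T hT E G _ _ _ _ _ ν Φ Φ' H Lf Lf' x x' A hx hx' hL S hS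
    hS' τ hτ => ?_⟩
  have le : ∀ i : ℕ, i ≤ S → (i : ℝ) ≤ k.κ0 * T := fun i hi => (Nat.cast_le.2 hi).trans hS'
  have hST : S ≤ T := by
    have : (S : ℝ) ≤ T := hS'.trans (mul_le_of_le_one_left T.cast_nonneg hk.κ1)
    exact_mod_cast this
  have D0 : 0 < k.D T := Real.exp_pos _
  have D1 : k.D T ≤ 1 :=
    Real.exp_le_one_iff.2 (neg_nonpos.2 (mul_nonneg hk.c1.le (Nat.cast_nonneg _)))
  have S0 : (0 : ℝ) ≤ S := S.cast_nonneg
  have Λ0 := hk.Λ
  have x1 : Real.exp ((k.Λ + 1) * S) ≤ Real.exp ((2 * k.Λ + 2) * S) := Real.exp_le_exp.2 (by nlinarith)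
  have x2 : 1 ≤ Real.exp ((2 * k.Λ + 2) * S) := Real.one_le_exp (by positivity)
  refine (h T hT E ν ν Φ Φ' Lf Lf' x x' (H S) hx hx' (hL.sm S hS').1 (hL.sm S hS').2 S hS hST
    (Real.exp ((2 * k.Λ + 2) * S) * (k.K * k.D T)) (fun t ht => ?_) τ hτ).trans ?_
  · refine (grow hk hx (y := fun i => H i (x' i t)) (z := fun i => x i t) S hST fun i hi => ?_).trans
      (mul_le_mul x1 (hL.known t ht).1 (norm_nonneg _) (Real.exp_pos _).le)
    have h1 := hL.mem t ht (i + 1) (le _ hi)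
    exact ⟨h1, (hx.known t ht _ (by omega)).1, hL.rel t ⟨ht.1, ht.2.trans hk.τ1⟩ i (le _ hi)
      (hx'.known t ht _ (by omega)).1 (hx'.known t ht _ (by omega)).1 h1,
      by rw [hx.rel i (by omega)]; rfl⟩
  · rw [mul_assoc M, mul_assoc M]
    refine mul_le_mul_of_nonneg_left ?_ (by linarith)
    nlinarith

theorem cmpF (hA : ApS) (_hK : KnF) : CmpF := cmpF' hA

end Crest.Agent.N221.NC
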