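import Crest.Agent.N221.NC.Core
import Crest.Agent.N221.NC.Fd

/-! Row 221, block NC (helper28): assembly of the core without variation. -/

set_option autoImplicit false

open Set Metric Filter
open scoped ContDiff Topology

noncomputable section

namespace Crest.Agent.N221.NC

lemma lin_num' {Λ χ σ s T S j : ℝ} (hΛ : 0 < Λ) (hχ : 0 < χ)
    (s4 : (2 * Λ + 2) * s ≤ χ * σ / 2) (T0 : 0 ≤ T) (S0 : 0 ≤ S)
    (S2 : S ≤ s * T + 1) (j1 : σ * T ≤ j) :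
    -(χ * (S + j)) + (2 * Λ + 2) * S ≤ (2 * Λ + 2) + -(χ * σ / 2 * T) := by
  have c4 := mul_le_mul_of_nonneg_right s4 T0
  have c5 := mul_le_mul_of_nonneg_left S2 hΛ.le
  have c7 := mul_le_mul_of_nonneg_left j1 hχ.le
  have c9 := mul_nonneg hχ.le S0
  linarith

theorem coreF (hE : EscS) (hC : CmpF) (hA : AngF) (hV : AvgS) : CoreF := by
  intro E G _ _ _ _ _ _ k hk η hη
  have : CompleteSpace E := FiniteDimensional.complete ℝ E
  obtain ⟨κ, γ, N, T1, κ0, γ0, hA⟩ := hA E G k hk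
  have hΛ := hk.Λ
  have hχ := hk.χ
  have hc1 := hk.c1
  have hK := hk.K
  have hR := hk.R
  obtain ⟨m0, m00, m01, m02⟩ : ∃ m0 : ℝ, 0 < m0 ∧ m0 ≤ k.c1 ∧ m0 ≤ γ :=
    ⟨min k.c1 γ, lt_min hc1 γ0, min_le_left _ _, min_le_right _ _⟩
  obtain ⟨σ, σ0, hσ⟩ : ∃ σ : ℝ, 0 < σ ∧ k.Λ * σ = m0 / 16 :=
    ⟨m0 / (16 * k.Λ), by positivity, by field_simp⟩
  obtain ⟨s, s0, s1, s2, s3, s4⟩ : ∃ s : ℝ, 0 < s ∧ 2 * s ≤ κ ∧ 2 * s ≤ k.κ0 ∧
      (2 * k.Λ + 2) * s ≤ m0 / 16 ∧ (2 * k.Λ + 2) * s ≤ k.χ * σ / 2 := by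
    have := hk.κ0
    refine ⟨min (min (κ / 2) (k.κ0 / 2)) (min (m0 / 16 / (2 * k.Λ + 2)) (k.χ * σ / 2 / (2 * k.Λ + 2))),
      by positivity, ?_, ?_, ?_, ?_⟩
    · linarith [min_le_left (min (κ / 2) (k.κ0 / 2))
        (min (m0 / 16 / (2 * k.Λ + 2)) (k.χ * σ / 2 / (2 * k.Λ + 2))), min_le_left (κ / 2) (k.κ0 / 2)]
    · linarith [min_le_left (min (κ / 2) (k.κ0 / 2))
        (min (m0 / 16 / (2 * k.Λ + 2)) (k.χ * σ / 2 / (2 * k.Λ + 2))), min_le_right (κ / 2) (k.κ0 / 2)]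
    · rw [mul_comm, ← le_div_iff₀ (by positivity)]
      exact (min_le_right _ _).trans (min_le_left _ _)
    · rw [mul_comm, ← le_div_iff₀ (by positivity)]
      exact (min_le_right _ _).trans (min_le_right _ _)
  obtain ⟨g', g0, T2, hE⟩ := hE k hk s s0
  obtain ⟨C, C1, T3, hC⟩ := hC k hk s s0
  set W := Real.exp (2 * k.Λ + 2) with hW
  have W1 : 1 ≤ W := Real.one_le_exp (by positivity)
  set M1 := (C + 1) * W + W * (C * W + 1) + 4 * C ^ 2 * W ^ 4 with hM1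
  set M2 := 2 * C * W ^ 2 + 4 * C ^ 2 * W ^ 4 with hM2
  have M10 : 0 < M1 := by positivity
  have M20 : 0 < M2 := by positivity
  obtain ⟨ε, ε0, ε1, ε2, ε3, ε4⟩ : ∃ ε : ℝ, 0 < ε ∧ ε ≤ 1 ∧ ε ≤ η ∧
      2 * C * W ^ 2 * ε ≤ k.R / k.K ∧ k.K ^ 2 * (M1 + N * M2) * ε ≤ η := by
    refine ⟨min (min 1 η) (min (k.R / k.K / (2 * C * W ^ 2)) (η / (k.K ^ 2 * (M1 + N * M2)))),
      by positivity, (min_le_left _ _).trans (min_le_left _ _),
      (min_le_left _ _).trans (min_le_right _ _), ?_, ?_⟩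
    · rw [mul_comm, ← le_div_iff₀ (by positivity)]
      exact (min_le_right _ _).trans (min_le_left _ _)
    · rw [mul_comm, ← le_div_iff₀ (by positivity)]
      exact (min_le_right _ _).trans (min_le_right _ _)
  obtain ⟨T0, hT0⟩ := eventually_atTop.1 ((((((ev_exp (p := m0 / 8) (by positivity) ε0).and
    (ev_exp (p := k.χ * σ / 2) (by positivity) ε0)).and
    (ev_exp g0 (show 0 < k.R / (2 * k.K) by positivity))).and (ev_lin s0)).and
    (eventually_ge_atTop T1)).and ((eventually_ge_atTop T2).and (eventually_ge_atTop T3)))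
  refine ⟨T0, fun T hT X _ n ν Φ H Lf x A P hn hx hl => ?_⟩
  obtain ⟨⟨⟨⟨⟨a1, a2⟩, a3⟩, a4⟩, a5⟩, a6, a7⟩ := hT0 T hT
  have T0' : (0 : ℝ) ≤ T := Nat.cast_nonneg T
  obtain ⟨S, S1, S2⟩ : ∃ S : ℕ, s * T ≤ S ∧ (S : ℝ) ≤ s * T + 1 :=
    ⟨⌈s * T⌉₊, Nat.le_ceil _, (Nat.ceil_lt_add_one (by positivity)).le⟩
  obtain ⟨j, j1, j2⟩ : ∃ j : ℕ, σ * T ≤ j ∧ (j : ℝ) ≤ σ * T + 1 :=
    ⟨⌈σ * T⌉₊, Nat.le_ceil _, (Nat.ceil_lt_add_one (by positivity)).le⟩
  have S0 : (0 : ℝ) ≤ S := Nat.cast_nonneg S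
  obtain ⟨Sκ, Sκ0, b1, b2, -, -⟩ := lin_num hΛ hχ m00 hσ s1 s2 s3
    (le_trans (mul_le_mul_of_nonneg_right (by linarith) s0.le) s4) s0 T0' a4 S0 S2 j1 j2
  have b4 := lin_num' hΛ hχ s4 T0' S0 S2 j1
  set y := Real.exp (m0 / 8 * T) with hy
  have y1 : 1 ≤ y := Real.one_le_exp (by positivity)
  have yi : y⁻¹ ≤ ε := by rw [hy, ← Real.exp_neg]; exact a1
  have yp : ∀ (p : ℝ) (q : ℕ), m0 / 8 * q ≤ p → Real.exp (-(p * T)) * y ^ q ≤ 1 := by
    intro p q h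
    rw [hy, ← Real.exp_nat_mul, ← Real.exp_add, Real.exp_le_one_iff]
    linarith [mul_le_mul_of_nonneg_right h T0']
  have D0 : 0 < k.D T := Real.exp_pos _
  have hD : k.D T * y ^ 8 ≤ 1 := yp k.c1 8 (by push_cast; linarith)
  have hh : Real.exp (-(k.c1 / 2 * T)) * y ^ 4 ≤ 1 := yp (k.c1 / 2) 4 (by push_cast; linarith)
  have hWy : ∀ p : ℝ, p ≤ m0 / 8 * T + (2 * k.Λ + 2) → Real.exp p ≤ W * y := by
    intro p h
    rw [hW, hy, ← Real.exp_add]
    exact Real.exp_le_exp.2 (by linarith)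
  have hea : Real.exp (k.Λ * (S + j)) ≤ W * y := hWy _ b1
  have heb : Real.exp ((2 * k.Λ + 2) * S) ≤ W * y := hWy _ b2
  have hec : Real.exp (-(k.χ * (S + j))) * Real.exp ((2 * k.Λ + 2) * S) ≤
      W * Real.exp (-(k.χ * σ / 2 * T)) := by
    rw [hW, ← Real.exp_add, ← Real.exp_add]
    exact Real.exp_le_exp.2 b4
  have hh1 : Real.exp (-(k.c1 / 2 * T)) ≤ 1 :=
    Real.exp_le_one_iff.2 (neg_nonpos.2 (by positivity))
  -- all curves are tiny after time `S`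
  have tiny : ∀ i ≤ n, ∀ τ ∈ Icc (0 : ℝ) 1, ∀ S', S ≤ S' → S' ≤ T →
      ‖x i S' τ‖ ≤ k.R / k.K ∧ ‖x i S' τ‖ ≤ k.R / 2 := by
    intro i hi τ hτ S' h1 h2
    have h3 := (hE T a6 E ν _ _ _ (hx i hi) S' (S1.trans (by exact_mod_cast h1)) h2 τ hτ).trans a3
    exact ⟨h3.trans (half_num hR hK).1, h3.trans
      (div_le_div_of_nonneg_left hR.le two_pos (by linarith))⟩
  -- the grid
  set ρ := Real.exp (-(γ * T)) with hρ
  have ρ0 : 0 < ρ := Real.exp_pos _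
  set m := ⌈Real.exp (γ / 2 * T)⌉₊ with hm
  have m0' : 0 < m := Nat.ceil_pos.2 (Real.exp_pos _)
  have hgrid : ∀ l < m, 1 - ε ≤ 1 - (l : ℝ) * ρ ∧ 1 - (l : ℝ) * ρ ∈ Icc (0 : ℝ) 1 := by
    intro l hl
    have h1 : (l : ℝ) < Real.exp (γ / 2 * T) := Nat.lt_ceil.1 hl
    have h2 : (l : ℝ) * ρ ≤ ε := by
      calc (l : ℝ) * ρ ≤ Real.exp (γ / 2 * T) * ρ := by gcongr
        _ = Real.exp (-(γ / 2 * T)) := by rw [hρ, ← Real.exp_add]; congr 1; ring
        _ ≤ Real.exp (-(m0 / 8 * T)) := Real.exp_le_exp.2 (by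
            linarith [mul_le_mul_of_nonneg_right m02 T0', mul_nonneg m00.le T0'])
        _ ≤ ε := a1
    have h3 : 0 ≤ (l : ℝ) * ρ := by positivity
    exact ⟨by linarith, by linarith, by linarith⟩
  obtain ⟨l, hl1, hsum⟩ := hV n m N
    (fun i l => dist (P (i + 1) j (1 - l * ρ)) (P i j (1 - l * ρ)))
    (fun i l => ¬ ∃ a, ‖H i S (x (i + 1) S (1 - l * ρ)) - x i S (1 - l * ρ) -
      A i S (1 - l * ρ) a‖ ≤ k.D T * Real.exp (-(k.c1 / 2 * T)))
    (k.K * k.D T * M1 * ε) (k.K * k.D T * M2 * y ^ 2) m0' (by positivity) (by positivity)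
    (fun i hi t ht => by
      by_contra hN
      have inj : Function.Injective fun l : ℕ => 1 - (l : ℝ) * ρ := fun l l' e => by
        have : (l : ℝ) * ρ = l' * ρ := by dsimp only at e; linarith
        exact_mod_cast mul_right_cancel₀ ρ0.ne' this
      obtain ⟨τ, hτ, h⟩ := hA T a5 ν _ _ _ _ _ _ _ _ (hx i hi.le) (hx (i + 1) hi) (hl i hi).1
        (hl i hi).2.1 (t.map ⟨_, inj⟩) (by rw [Finset.card_map]; omega)
        (fun τ hτ => by
          obtain ⟨l, h1, rfl⟩ := Finset.mem_map.1 hτ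
          exact (hgrid l (ht l h1).1).2)
        (fun τ hτ τ' hτ' ne => by
          obtain ⟨l, h1, rfl⟩ := Finset.mem_map.1 hτ
          obtain ⟨l', h2, rfl⟩ := Finset.mem_map.1 hτ'
          have ne' : (l' : ℤ) - l ≠ 0 := fun e => ne (by
            have : l = l' := by omega
            rw [this])
          have h3 : (1 : ℝ) ≤ |(l' : ℝ) - l| := by exact_mod_cast Int.one_le_abs ne'
          have : (1 - (l : ℝ) * ρ) - (1 - (l' : ℝ) * ρ) = (l' - l) * ρ := by ring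
          show ρ ≤ |(1 - (l : ℝ) * ρ) - (1 - (l' : ℝ) * ρ)|
          rw [this, abs_mul, abs_of_pos ρ0]
          exact le_mul_of_one_le_left ρ0.le h3)
      obtain ⟨l, h1, rfl⟩ := Finset.mem_map.1 hτ
      exact (ht l h1).2 (h S Sκ fun i' h2 h3 =>
        ⟨(tiny i hi.le _ (hgrid l (ht l h1).1).2 i' h2 h3).2,
          (tiny (i + 1) hi _ (hgrid l (ht l h1).1).2 i' h2 h3).2⟩))
    (fun i hi l hl' => by
      obtain ⟨hv, hlk, hb⟩ := hl i hi
      have hτ := (hgrid l hl').2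
      set τ := 1 - (l : ℝ) * ρ
      have c1 := hC T a7 E G ν _ _ _ _ _ _ _ _ (hx i hi.le) (hx (i + 1) hi) hlk S S1 Sκ0 τ hτ
      obtain ⟨n1, n2, n3⟩ := step_num (r := 0) hK C1 W1 y1 yi a2 D0 hD hh (Real.exp_pos _)
        hh1 (Real.exp_pos _) hea heb (Real.one_le_exp (by positivity)) heb (Real.exp_pos _) hec
        (by positivity) c1 (by positivity) (norm_nonneg _) (add_zero _).ge
      have hb' := hb τ hτ S j Sκ0
        (fun S' h1 h2 => ⟨(tiny i hi.le τ hτ S' h1 h2).1, (tiny (i + 1) hi τ hτ S' h1 h2).1⟩)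
        (n1.trans ε3)
      have e2 : Real.exp (2 * k.Λ * (S + j)) = Real.exp (k.Λ * (S + j)) ^ 2 := by
        rw [← Real.exp_nat_mul]; congr 1; push_cast; ring
      rw [e2] at hb'
      refine ⟨?_, fun hg => ?_⟩
      · have h := hb' 0
        rw [map_zero, norm_zero, sub_zero] at h
        exact h.trans n2
      · obtain ⟨a, ha⟩ := not_not.1 hg
        refine (hb' a).trans (n3 _ _ ?_ ?_)
        · have := norm_le_norm_add_norm_sub (H i S (x (i + 1) S τ) - x i S τ) (A i S τ a)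
          linarith
        · linarith)
  refine ⟨1 - l * ρ, (hgrid l hl1).2, by linarith [(hgrid l hl1).1], j, ?_⟩
  have tri := dist_le_range_sum_dist (fun i => P i j (1 - l * ρ)) n
  rw [dist_comm] at tri
  simp only [dist_comm (P _ j _) (P (_ + 1) j _)] at tri
  refine tri.trans (hsum.trans ?_)
  have hm4 : y ^ 4 ≤ m := by
    refine le_trans ?_ (Nat.le_ceil _)
    rw [hy, ← Real.exp_nat_mul]
    exact Real.exp_le_exp.2 (by push_cast; linarith [mul_le_mul_of_nonneg_right m02 T0'])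
  have y0 : 0 < y := by linarith
  have q1 : y ^ 2 / m ≤ ε := by
    rw [div_le_iff₀ (by exact_mod_cast m0')]
    calc y ^ 2 = y⁻¹ * y ^ 3 := by field_simp
      _ ≤ ε * y ^ 4 := by gcongr; norm_num
      _ ≤ ε * m := by gcongr
  calc (n : ℝ) * (k.K * k.D T * M1 * ε) + n * N * (k.K * k.D T * M2 * y ^ 2) / m
      = n * k.D T * k.K * (M1 * ε + N * M2 * (y ^ 2 / m)) := by ring
    _ ≤ k.K * k.K * (M1 * ε + N * M2 * ε) := by gcongr
    _ = k.K ^ 2 * (M1 + N * M2) * ε := by ring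
    _ ≤ η := ε4

end Crest.Agent.N221.NC
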