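import Crest.Agent.N221.NC.Defs

/-! Row 221, block NC: escape. -/

set_option autoImplicit false

open Set Metric Filter Real
open scoped ContDiff Topology

noncomputable section

namespace Crest.Agent.N221.NC

namespace Esc

variable {E : Type} [NormedAddCommGroup E] [NormedSpace ℝ E]

lemma itd_mul (f : ℝ → E) (c : ℝ) (j : ℕ) :
    iteratedDeriv j (fun t => f (c * t)) = fun t => c ^ j • iteratedDeriv j f (c * t) := by
  induction j with
  | zero => simp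
  | succ j ih =>
    funext t
    rw [iteratedDeriv_succ, ih, deriv_fun_const_smul_field, deriv_comp_mul_left, smul_smul,
      ← iteratedDeriv_succ, pow_succ]

lemma itd_id (y : E) {j : ℕ} (hj : 1 ≤ j) : ‖iteratedFDeriv ℝ j (id : E → E) y‖ ≤ 1 := by
  obtain ⟨j, rfl⟩ := Nat.exists_eq_add_of_le' hj
  rw [← norm_iteratedFDeriv_fderiv, show fderiv ℝ (id : E → E) = fun _ => ContinuousLinearMap.id ℝ E
    from funext fun _ => fderiv_id]
  rcases eq_or_ne j 0 with rfl | h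
  · simpa using ContinuousLinearMap.norm_id_le
  · simp [iteratedFDeriv_const_of_ne h]

variable {k : Cst} {T S0 S S' : ℕ} {ν : E → ℝ} {Φ : ℕ → E → E} {Lf : ℕ → Set E} {x : ℕ → ℝ → E}
  {τ : ℝ} (h : Crv k T ν Φ Lf x)
include h

lemma cont (hτ : τ ∈ Icc (0 : ℝ) 1)
    (H : ∀ S, S0 ≤ S → S ≤ T → ContinuousAt (x S) τ → x S τ ∈ ball (0 : E) k.R) (h0 : S0 ≤ S)
    (h1 : S ≤ T) : ContinuousAt (x S) τ := by
  induction h1 using Nat.decreasingInduction with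
  | self => exact (h.top τ hτ).1.continuousAt
  | of_succ S hS ih =>
    have a := ih (by omega)
    rw [h.rel S hS]
    exact ((h.sm S hS).continuousOn.continuousAt
      (isOpen_ball.mem_nhds (H _ (by omega) hS a))).comp a

variable (H : ∀ S, S0 ≤ S → S ≤ T → x S τ ∈ ball (0 : E) k.R)
include H

lemma back (h0 : S0 ≤ S) (h1 : S ≤ S') (h2 : S' ≤ T) :
    ‖x S τ‖ ≤ exp (k.Λ * (S' - S)) * ‖x S' τ‖ := by
  induction h1 using Nat.decreasingInduction with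
  | self => simp
  | of_succ S hS ih =>
    have hT : S < T := by omega
    have hy := H (S + 1) (by omega) hT
    have a := (convex_ball (0 : E) k.R).norm_image_sub_le_of_norm_fderiv_le (𝕜 := ℝ) (f := Φ S)
      (fun y hy => ((h.sm S hT).contDiffAt (isOpen_ball.mem_nhds hy)).differentiableAt (by simp))
      (h.d1 S hT) (mem_ball_self (pos_of_mem_ball hy)) hy
    rw [h.zero S hT, sub_zero, sub_zero] at a
    rw [h.rel S hT]
    refine a.trans ((mul_le_mul_of_nonneg_left (ih (by omega)) (exp_pos _).le).trans_eq ?_)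
    rw [← mul_assoc, ← exp_add]
    push_cast
    ring_nf

lemma leaf (hτ : τ ∈ Icc (0 : ℝ) 1) (h0 : S0 ≤ S) (h1 : S ≤ T) : x S τ ∈ Lf S := by
  induction h1 using Nat.decreasingInduction with
  | self => exact (h.top τ hτ).2.1
  | of_succ S hS ih =>
    rw [h.rel S hS]
    exact (h.leaf S hS _ (ih (by omega)) (H _ (by omega) hS)).1

lemma fwd (hk : k.Ok) (hτ : τ ∈ Icc (0 : ℝ) 1) (h0 : S0 ≤ S') (h1 : S' ≤ S) (h2 : S ≤ T) :
    ‖x S τ‖ ≤ k.K * (exp (-(k.χ * (S - S'))) * ‖x S' τ‖) := by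
  refine (h.nu S h2 _ (leaf h H hτ (by omega) h2) (H S (by omega) h2)).trans
    (mul_le_mul_of_nonneg_left ?_ (zero_le_one.trans hk.K))
  induction S, h1 using Nat.le_induction with
  | base => simpa using h.nu' _
  | succ S hS ih =>
    have a := (h.leaf S h2 _ (leaf h H hτ (by omega) h2) (H _ (by omega) h2)).2
    rw [← Function.comp_apply (f := Φ S) (g := x (S + 1)), ← h.rel S h2] at a
    refine a.trans ((mul_le_mul_of_nonneg_left (ih (by omega)) (exp_pos _).le).trans_eq ?_)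
    rw [← mul_assoc, ← exp_add]
    push_cast
    ring_nf

omit h H in
/-- the key estimate -/
lemma key (hk : k.Ok) {s m : ℝ} (m0 : 0 < m) (m1 : m ≤ k.χ * s) (m2 : m ≤ k.g) :
    ∃ C : ℝ, k.K ≤ C ∧ ∃ T0 : ℕ, ∀ T, T0 ≤ T →
    ∀ (E : Type) [NormedAddCommGroup E] [NormedSpace ℝ E] [CompleteSpace E] (ν : E → ℝ)
      (Φ : ℕ → E → E) (Lf : ℕ → Set E) (x : ℕ → ℝ → E), Crv k T ν Φ Lf x →
      ∀ S0 : ℕ, s * T ≤ S0 → ∀ t ≤ (1 : ℝ),
      (∀ τ ∈ Icc 0 t, ∀ S, S0 ≤ S → S ≤ T → x S τ ∈ ball (0 : E) k.R) →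
      ∀ τ ∈ Icc 0 t, ∀ S, S0 ≤ S → S ≤ T → ‖x S τ‖ ≤ C * exp (-(m / 2 * T)) := by
  have ⟨χ0, Λ0, g0, τ0, K1⟩ : 0 < k.χ ∧ 0 < k.Λ ∧ 0 < k.g ∧ 0 < k.τ0 ∧ 1 ≤ k.K :=
    ⟨hk.χ, hk.Λ, hk.g, hk.τ0, hk.K⟩
  obtain ⟨e, e0, he⟩ : ∃ e : ℝ, 0 < e ∧ k.Λ * e = m / 2 :=
    ⟨m / (2 * k.Λ), by positivity, by field_simp⟩
  obtain ⟨n, hn⟩ := PS.cl k.R (exp k.Λ) (min k.g (k.χ * e / 2)) 0 m k.K k.c k.d hk.R (exp_pos _).le
    (by positivity) le_rfl m0.le
  obtain ⟨T0, hT0⟩ := hn (n + 1) n.le_succ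
  obtain ⟨C, hC⟩ : ∃ C, C = (6 / k.τ0) ^ n * (k.K + 1) + 1 := ⟨_, rfl⟩
  have C1 : 1 ≤ C := by rw [hC]; exact le_add_of_nonneg_left (by positivity)
  have L1 : 1 ≤ exp k.Λ := one_le_exp Λ0.le
  have KC : k.K ≤ k.K * (exp k.Λ * C) :=
    le_mul_of_one_le_right (by linarith) (one_le_mul_of_one_le_of_one_le L1 C1)
  refine ⟨_, KC, T0, fun T hT E _ _ _ ν Φ Lf x h S0 hS t t1 H τ hτ S a1 a2 => ?_⟩
  have T0' : (0 : ℝ) ≤ T := T.cast_nonneg
  have mT : 0 ≤ m * T := by positivity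
  have kn : ∀ τ ∈ Icc (0 : ℝ) k.τ0, ∀ S, S0 ≤ S → S ≤ T → ‖x S τ‖ ≤ k.K * exp (-(m * T)) :=
    fun τ hτ S b1 b2 => (h.known τ hτ S b2).2.trans (by
      have : (S0 : ℝ) ≤ S := by exact_mod_cast b1
      refine mul_le_mul_of_nonneg_left (exp_le_exp.2 ?_) (by linarith)
      nlinarith [mul_le_mul_of_nonneg_left (hS.trans this) χ0.le,
        mul_le_mul_of_nonneg_right m1 T0'])
  have hτ1 : τ ∈ Icc (0 : ℝ) 1 := ⟨hτ.1, hτ.2.trans t1⟩
  have a3 : (S0 : ℝ) ≤ S := by exact_mod_cast a1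
  have c1 := Nat.le_ceil (e * T)
  have c2 := Nat.ceil_lt_add_one (by positivity : 0 ≤ e * T)
  have ex : ∀ S' : ℕ, S' ≤ S0 + ⌈e * T⌉₊ →
      exp (k.Λ * (S' - S)) * exp (-(m * T)) ≤ exp k.Λ * exp (-(m / 2 * T)) := fun S' b => by
    have : (S' : ℝ) ≤ S0 + ⌈e * T⌉₊ := by exact_mod_cast b
    rw [← exp_add, ← exp_add, exp_le_exp]
    nlinarith [mul_le_mul_of_nonneg_left (by linarith : (S' : ℝ) - S ≤ e * T + 1) Λ0.le]
  rcases le_total t k.τ0 with b0 | b0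
  · refine (kn τ ⟨hτ.1, hτ.2.trans b0⟩ S a1 a2).trans ?_
    gcongr
    linarith
  rcases le_total T (S0 + ⌈e * T⌉₊) with b1 | b1
  · calc _ ≤ _ := back h (H τ hτ) a1 a2 le_rfl
      _ ≤ exp (k.Λ * (T - S)) * (k.K * exp (-(m * T))) := by
          gcongr
          refine (h.top τ hτ1).2.2.1.trans ?_
          gcongr
      _ = k.K * (exp (k.Λ * (T - S)) * exp (-(m * T))) := by ring
      _ ≤ k.K * (exp k.Λ * C * exp (-(m / 2 * T))) := by
          refine mul_le_mul_of_nonneg_left ((ex T b1).trans ?_) (by linarith)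
          gcongr
          exact le_mul_of_one_le_right (by linarith) C1
      _ = _ := by ring
  have t0 : 0 < t := τ0.trans_le b0
  have mt : ∀ σ ∈ Icc (0 : ℝ) 1, t * σ ∈ Icc 0 t := fun σ hσ =>
    ⟨mul_nonneg t0.le hσ.1, mul_le_of_le_one_right t0.le hσ.2⟩
  have mt1 : ∀ σ ∈ Icc (0 : ℝ) 1, t * σ ∈ Icc (0 : ℝ) 1 := fun σ hσ =>
    ⟨(mt σ hσ).1, (mt σ hσ).2.trans t1⟩
  have cl := hT0 E E (S0 + ⌈e * T⌉₊) T Φ (fun S σ => x S (t * σ)) hT
    (fun S _ b => ⟨h.sm S b, fun y hy => ⟨h.d1 S b y hy, h.dj S b y hy⟩⟩)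
    (fun S _ b σ _ => by rw [h.rel S b]; rfl)
    (fun σ hσ => (h.top _ (mt1 σ hσ)).1.comp σ (f := fun σ => t * σ) (by fun_prop))
    (fun S b b' σ hσ => by
      have b3 : (S0 : ℝ) + ⌈e * T⌉₊ ≤ S := by exact_mod_cast b
      have b4 := (mem_ball_zero_iff.1 (H _ (mt σ hσ) S0 le_rfl (by omega))).le.trans hk.R1
      refine (fwd h (H _ (mt σ hσ)) hk (mt1 σ hσ) le_rfl (by omega) b').trans ?_
      gcongr
      refine (mul_le_of_le_one_right (exp_pos _).le b4).trans (exp_le_exp.2 ?_)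
      nlinarith [mul_le_mul_of_nonneg_right (min_le_right k.g (k.χ * e / 2)) T0',
        mul_le_mul_of_nonneg_left (by linarith : e * T ≤ S - S0) χ0.le])
    (fun j hj σ hσ => by
      have := hk.d j
      rw [itd_mul, norm_smul, zero_mul, exp_zero, mul_one, norm_pow, Real.norm_of_nonneg t0.le]
      refine (mul_le_of_le_one_left (norm_nonneg _) (pow_le_one₀ t0.le t1)).trans
        (((h.top _ (mt1 σ hσ)).2.2.2 j hj).trans (mul_le_mul_of_nonneg_left ?_ this))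
      refine (pow_le_pow_of_le_one (exp_pos _).le (exp_le_one_iff.2 (by simp; positivity))
        (Nat.log_le_self 2 j)).trans ?_
      gcongr
      exact min_le_left _ _) _ le_rfl b1
  have rm := PS.rmS E n (fun σ => x (S0 + ⌈e * T⌉₊) (t * σ)) (k.τ0 / t) _ (exp (-(m * T)))
    (by positivity) ((div_le_one t0).2 b0) (fun σ hσ => (cl σ hσ).1)
    (fun σ hσ => kn _ ⟨mul_nonneg t0.le hσ.1, (le_div_iff₀' t0).1 hσ.2⟩ _ (by omega) b1)
    (fun σ hσ => (cl σ hσ).2.2 id contDiffOn_id fun y _ j hj => (itd_id y hj).trans (hk.c j))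
    (τ / t) ⟨div_nonneg hτ.1 t0.le, (div_le_one t0).2 hτ.2⟩
  rw [mul_div_cancel₀ _ t0.ne'] at rm
  have r1 : ‖x (S0 + ⌈e * T⌉₊) τ‖ ≤ C * exp (-(m * T)) := by
    calc _ ≤ _ := rm
      _ ≤ (6 / k.τ0) ^ n * (k.K * exp (-(m * T)) + exp (-(m * T))) + exp (-(m * T)) := by
          gcongr
          exact le_div_self τ0.le t0 t1
      _ = _ := by rw [hC]; ring
  rcases le_total S (S0 + ⌈e * T⌉₊) with b2 | b2
  · calc _ ≤ _ := back h (H τ hτ) a1 b2 b1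
      _ ≤ exp (k.Λ * ((S0 + ⌈e * T⌉₊ : ℕ) - S)) * (C * exp (-(m * T))) := by gcongr
      _ = 1 * (C * (exp (k.Λ * ((S0 + ⌈e * T⌉₊ : ℕ) - S)) * exp (-(m * T)))) := by ring
      _ ≤ k.K * (C * (exp k.Λ * exp (-(m / 2 * T)))) := by
          gcongr ?_ * (C * ?_)
          exact ex _ le_rfl
      _ = _ := by ring
  · have b3 : ((S0 + ⌈e * T⌉₊ : ℕ) : ℝ) ≤ S := by exact_mod_cast b2
    calc _ ≤ _ := fwd h (H τ hτ) hk hτ1 (by omega) b2 a2
      _ ≤ k.K * (exp k.Λ * (C * exp (-(m / 2 * T)))) := by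
          gcongr
          · nlinarith
          · refine r1.trans ?_
            gcongr
            linarith
      _ = _ := by ring

end Esc

open Esc

theorem escS : EscS := by
  intro k hk s hs
  have m0 : 0 < min (k.χ * s) k.g := lt_min (mul_pos hk.χ hs) hk.g
  have m1 := min_le_left (k.χ * s) k.g
  obtain ⟨C, C1, T0, hC⟩ := key hk m0 m1 (min_le_right _ _)
  generalize min (k.χ * s) k.g = m at *
  have C0 : 0 < C := by linarith [hk.K]
  have R0 := hk.R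
  obtain ⟨T1, hT1⟩ := eventually_atTop.1 ((tendsto_exp_neg_atTop_nhds_zero.comp
    (tendsto_natCast_atTop_atTop.const_mul_atTop (by positivity : 0 < m / 4))).eventually_lt_const
      (by positivity : 0 < min C⁻¹ (k.R / 2)))
  refine ⟨m / 4, by positivity, max T0 T1, fun T hT E _ _ _ ν Φ Lf x h S0 a1 a2 τ hτ => ?_⟩
  obtain ⟨b1, b2⟩ := lt_min_iff.1 (hT1 T (le_of_max_le_right hT))
  simp only [Function.comp_apply] at b1 b2
  have b3 : C * exp (-(m / 2 * T)) ≤ exp (-(m / 4 * T)) := by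
    rw [show -(m / 2 * T) = -(m / 4 * T) + -(m / 4 * T) by ring, exp_add, ← mul_assoc]
    exact mul_le_of_le_one_left (exp_pos _).le
      ((mul_le_mul_of_nonneg_left b1.le C0.le).trans_eq (mul_inv_cancel₀ C0.ne'))
  have hb : ∀ y : E, ‖y‖ ≤ k.R / 2 → y ∈ ball (0 : E) k.R := fun y hy =>
    mem_ball_zero_iff.2 (by linarith)
  have hK := hC T (le_of_max_le_left hT) E ν Φ Lf x h S0 a1
  have hZ : Icc (0 : ℝ) 1 ⊆ {τ | ∀ S ∈ Icc S0 T, ‖x S τ‖ ≤ k.R / 2} := by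
    refine IsClosed.Icc_subset_of_forall_mem_nhdsGT_of_Icc_subset
      (isClosed_of_closure_subset fun t ht => ?_) (fun S hS => ?_) fun t ht hz => ?_
    · have t1 : t ∈ Icc (0 : ℝ) 1 := isClosed_Icc.closure_subset (closure_mono inter_subset_right ht)
      have t2 : ∀ S, S0 ≤ S → S ≤ T → ContinuousAt (x S) t → ‖x S t‖ ≤ k.R / 2 := fun S c1 c2 c =>
        ContinuousWithinAt.closure_le ht c.norm.continuousWithinAt continuousWithinAt_const
          fun y hy => hy.1 S ⟨c1, c2⟩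
      exact ⟨fun S hS => t2 S hS.1 hS.2
        (cont h t1 (fun S c1 c2 c => hb _ (t2 S c1 c2 c)) hS.1 hS.2), t1⟩
    · exact (hK 0 zero_le_one (fun τ hτ S _ c => (h.known τ ⟨hτ.1, hτ.2.trans hk.τ0.le⟩ S c).1) 0
        ⟨le_rfl, le_rfl⟩ S hS.1 hS.2).trans (b3.trans b2.le)
    · refine mem_nhdsWithin_of_mem_nhds ((eventually_all_finite (finite_Icc S0 T)).2 fun S hS => ?_)
      exact ((cont h ⟨ht.1, ht.2.le⟩ (fun S c1 c2 _ => hb _ (hz ⟨ht.1, le_rfl⟩ S ⟨c1, c2⟩)) hS.1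
        hS.2).norm.eventually_lt_const ((hK t ht.2.le (fun τ hτ S c1 c2 => hb _ (hz hτ S ⟨c1, c2⟩)) t
          ⟨ht.1, le_rfl⟩ S hS.1 hS.2).trans_lt (b3.trans_lt b2))).mono fun _ => le_of_lt
  exact (hK 1 le_rfl (fun τ hτ S c1 c2 => hb _ (hZ hτ S ⟨c1, c2⟩)) τ hτ S0 le_rfl a2).trans b3

end Crest.Agent.N221.NC
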