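import Crest.Agent.N221.NC.Defs

/-! Row 221, block NC (helper67): `GridS` (Taylor + Lagrange interpolation at separated nodes) and
`AvgS` (averaging over a grid). -/

set_option autoImplicit false

open Set Metric
open scoped ContDiff Topology Nat

namespace Crest.Agent.N221.NC

namespace GridP

open Finset

/-- Lagrange interpolation at `ρ`-separated nodes of `[0, 1]` -/
lemma lagr {N : ℕ} (c : ℕ → ℝ) {s : Finset ℝ} {ρ η : ℝ} (hρ : 0 < ρ) (hs : s.card = N + 1)
    (h : ∀ t ∈ s, t ∈ Icc (0 : ℝ) 1 ∧ |∑ i ∈ range (N + 1), t ^ i * c i| ≤ η)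
    (hsep : ∀ t ∈ s, ∀ t' ∈ s, t ≠ t' → ρ ≤ |t - t'|) {t : ℝ} (ht : t ∈ Icc (0 : ℝ) 1) :
    |∑ i ∈ range (N + 1), t ^ i * c i| ≤ (N + 1) * η / ρ ^ N := by
  classical
  set b : ℝ → ℝ := fun k => (Lagrange.basis s id k).eval t with hb
  have hpow : ∀ i ∈ range (N + 1), t ^ i = ∑ k ∈ s, b k * k ^ i := by
    intro i hi
    have h1 := Lagrange.eq_interpolate (s := s) (v := id)
      (f := (Polynomial.X : Polynomial ℝ) ^ i) (injOn_id _) (by
      rw [Polynomial.degree_X_pow, hs]
      exact_mod_cast Finset.mem_range.1 hi)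
    have h2 := congrArg (Polynomial.eval t) h1
    rw [Lagrange.interpolate_apply, Polynomial.eval_finsetSum] at h2
    simp only [Polynomial.eval_pow, Polynomial.eval_X, Polynomial.eval_mul,
      Polynomial.eval_C, id] at h2
    rw [h2]
    exact Finset.sum_congr rfl fun k _ => mul_comm _ _
  have hsum : ∑ i ∈ range (N + 1), t ^ i * c i =
      ∑ k ∈ s, b k * ∑ i ∈ range (N + 1), k ^ i * c i := by
    simp only [Finset.mul_sum, ← mul_assoc]
    rw [Finset.sum_comm]
    exact Finset.sum_congr rfl fun i hi => by rw [hpow i hi, Finset.sum_mul]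
  have hbk : ∀ k ∈ s, |b k| ≤ (ρ ^ N)⁻¹ := by
    intro k hk
    have hcard : (s.erase k).card = N := by
      rw [Finset.card_erase_of_mem hk, hs, Nat.add_sub_cancel]
    have h1 : |b k| = ∏ j ∈ s.erase k, |(k - j)⁻¹ * (t - j)| := by
      simp only [hb, Lagrange.basis, Lagrange.basisDivisor, Polynomial.eval_prod,
        Polynomial.eval_mul, Polynomial.eval_C, Polynomial.eval_sub, Polynomial.eval_X,
        Finset.abs_prod, id]
    have h2 : ∀ j ∈ s.erase k, |(k - j)⁻¹ * (t - j)| ≤ ρ⁻¹ := by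
      intro j hj
      have hj' := (h j (Finset.mem_of_mem_erase hj)).1
      have h3 : |t - j| ≤ 1 := abs_le.2 ⟨by linarith [ht.1, hj'.2], by linarith [ht.2, hj'.1]⟩
      have h4 := hsep k hk j (Finset.mem_of_mem_erase hj) (Finset.ne_of_mem_erase hj).symm
      rw [abs_mul, abs_inv]
      exact (mul_le_of_le_one_right (by positivity) h3).trans (inv_anti₀ hρ h4)
    rw [h1]
    refine (Finset.prod_le_prod (fun _ _ => abs_nonneg _) h2).trans (le_of_eq ?_)
    rw [Finset.prod_const, hcard, inv_pow]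
  rw [hsum]
  calc |∑ k ∈ s, b k * ∑ i ∈ range (N + 1), k ^ i * c i| ≤ ∑ _k ∈ s, (ρ ^ N)⁻¹ * η := by
        refine (Finset.abs_sum_le_sum_abs _ _).trans (Finset.sum_le_sum fun k hk => ?_)
        rw [abs_mul]
        exact mul_le_mul (hbk k hk) (h k hk).2 (abs_nonneg _) (by positivity)
    _ = (N + 1) * η / ρ ^ N := by
        rw [Finset.sum_const, hs, nsmul_eq_mul]
        push_cast
        ring

end GridP

theorem gridS : GridS := by
  intro N f s ρ η ε hρ _ hf hε hs h hsep t ht
  have hε0 : 0 ≤ ε := (abs_nonneg _).trans (hε 0 ⟨le_rfl, zero_le_one⟩)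
  have hat : ∀ s ∈ Icc (0 : ℝ) 1, ContDiffAt ℝ (N + 1 : ℕ) f s := fun s hs =>
    (hf s hs).of_le (by exact_mod_cast le_top)
  have hon : ContDiffOn ℝ (N + 1) f (Icc 0 1) := fun s hs => by
    exact_mod_cast (hat s hs).contDiffWithinAt
  have hbd : ∀ s ∈ Icc (0 : ℝ) 1, ‖iteratedDerivWithin (N + 1) f (Icc 0 1) s‖ ≤ ε := by
    intro s hs
    rw [iteratedDerivWithin_eq_iteratedDeriv (uniqueDiffOn_Icc zero_lt_one) (hat s hs) hs]
    exact hε s hs
  set c : ℕ → ℝ := fun k => (k ! : ℝ)⁻¹ * iteratedDerivWithin k f (Icc 0 1) 0 with hc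
  have hrem : ∀ s ∈ Icc (0 : ℝ) 1, |f s - ∑ i ∈ Finset.range (N + 1), s ^ i * c i| ≤ ε := by
    intro s hs
    have h1 := taylor_mean_remainder_bound zero_le_one hon hs hbd
    have h2 : taylorWithinEval f N (Icc 0 1) 0 s = ∑ i ∈ Finset.range (N + 1), s ^ i * c i := by
      rw [taylor_within_apply]
      exact Finset.sum_congr rfl fun i _ => by rw [hc, smul_eq_mul, sub_zero]; ring
    rw [h2, sub_zero] at h1
    refine h1.trans ?_
    have h3 : (1 : ℝ) ≤ (N ! : ℝ) := by exact_mod_cast Nat.factorial_pos N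
    refine (div_le_self (mul_nonneg hε0 (pow_nonneg hs.1 _)) h3).trans ?_
    exact mul_le_of_le_one_right hε0 (pow_le_one₀ hs.1 hs.2)
  have h4 := GridP.lagr c (η := η + ε) hρ hs (fun u hu => ⟨(h u hu).1, by
    have h5 := abs_sub_abs_le_abs_sub (∑ i ∈ Finset.range (N + 1), u ^ i * c i) (f u)
    rw [abs_sub_comm] at h5
    linarith [hrem u (h u hu).1, (h u hu).2]⟩) hsep ht
  have h6 := abs_sub_abs_le_abs_sub (f t) (∑ i ∈ Finset.range (N + 1), t ^ i * c i)
  linarith [hrem t ht]

theorem avgS : AvgS := by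
  intro n m N h Bad u v hm hu hv hB hh
  classical
  have hm' : (0 : ℝ) < m := by exact_mod_cast hm
  have h1 : ∀ i ∈ Finset.range n, ∑ l ∈ Finset.range m, h i l ≤ m * u + N * v := by
    intro i hi
    have hi' := Finset.mem_range.1 hi
    have h2 : (((Finset.range m).filter (Bad i)).card : ℝ) ≤ N := by
      exact_mod_cast hB i hi' _ fun l hl =>
        ⟨Finset.mem_range.1 (Finset.mem_filter.1 hl).1, (Finset.mem_filter.1 hl).2⟩
    calc ∑ l ∈ Finset.range m, h i l
        ≤ ∑ l ∈ Finset.range m, (u + if Bad i l then v else 0) := by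
          refine Finset.sum_le_sum fun l hl => ?_
          have h3 := hh i hi' l (Finset.mem_range.1 hl)
          split_ifs with hb
          · linarith [h3.1]
          · linarith [h3.2 hb]
      _ = m * u + ((Finset.range m).filter (Bad i)).card * v := by
          rw [Finset.sum_add_distrib, ← Finset.sum_filter]
          simp
      _ ≤ _ := by gcongr
  have h4 : ∑ l ∈ Finset.range m, ∑ i ∈ Finset.range n, h i l ≤
      ∑ _l ∈ Finset.range m, (n * u + n * N * v / m) := by
    rw [Finset.sum_comm]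
    refine (Finset.sum_le_sum h1).trans (le_of_eq ?_)
    simp only [Finset.sum_const, Finset.card_range, nsmul_eq_mul]
    field_simp
  obtain ⟨l, hl, h5⟩ := Finset.exists_le_of_sum_le ⟨0, Finset.mem_range.2 hm⟩ h4
  exact ⟨l, Finset.mem_range.1 hl, h5⟩

end Crest.Agent.N221.NC
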