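import Crest.Agent.N221.NC.Defs

/-! Row 221, block NC: growth of the errors on the known part (leaf NC-Kn, helper43). -/

set_option autoImplicit false

open Set Metric
open scoped ContDiff Topology

noncomputable section

namespace Crest.Agent.N221.NC

namespace Kn

/-- second order Taylor estimate on a ball -/
lemma taylor {E : Type} [NormedAddCommGroup E] [NormedSpace ℝ E] {Φ : E → E} {R c : ℝ}
    (hΦ : ContDiffOn ℝ ∞ Φ (ball 0 R)) (hc : ∀ z ∈ ball (0 : E) R, ‖iteratedFDeriv ℝ 2 Φ z‖ ≤ c)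
    {x y : E} (hx : x ∈ ball (0 : E) R) (hy : y ∈ ball (0 : E) R) :
    ‖Φ y - Φ x - fderiv ℝ Φ x (y - x)‖ ≤ c * ‖y - x‖ * ‖y - x‖ := by
  have hs : segment ℝ x y ⊆ ball 0 R := (convex_ball _ _).segment_subset hx hy
  have h1 : ∀ z ∈ ball (0 : E) R, DifferentiableAt ℝ Φ z := fun z hz =>
    (hΦ.contDiffAt (isOpen_ball.mem_nhds hz)).differentiableAt (by simp)
  have h2 : ∀ z ∈ ball (0 : E) R, DifferentiableAt ℝ (fderiv ℝ Φ) z := fun z hz =>
    ((hΦ.fderiv_of_isOpen (m := ∞) isOpen_ball (by simp)).contDiffAt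
      (isOpen_ball.mem_nhds hz)).differentiableAt (by simp)
  have h3 : ∀ z ∈ ball (0 : E) R, ‖fderiv ℝ (fderiv ℝ Φ) z‖ ≤ c := fun z hz => by
    rw [← norm_iteratedFDeriv_one, norm_iteratedFDeriv_fderiv]; exact hc z hz
  refine (convex_segment x y).norm_image_sub_le_of_norm_fderiv_le' (fun z hz => h1 z (hs hz))
    (fun z hz => ?_) (left_mem_segment _ _ _) (right_mem_segment _ _ _)
  refine ((convex_ball 0 R).norm_image_sub_le_of_norm_fderiv_le h2 h3 hx (hs hz)).trans ?_
  refine mul_le_mul_of_nonneg_left ?_ ((norm_nonneg _).trans (hc x hx))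
  have := (convex_closedBall x ‖y - x‖).segment_subset (mem_closedBall_self (norm_nonneg _))
    (mem_closedBall_iff_norm.2 le_rfl) hz
  exact mem_closedBall_iff_norm.1 this

end Kn

theorem knS : KnS := by
  intro k hk
  set b := Real.exp k.Λ with hb
  set q := Real.exp (k.Λ + 1) with hq
  have b1 : 1 ≤ b := Real.one_le_exp hk.Λ.le
  have c1 := hk.c 2
  have K1 := hk.K
  have hqb : 2 * b ≤ q := by
    rw [hq, Real.exp_add, mul_comm]
    exact mul_le_mul_of_nonneg_left (by linarith [Real.add_one_le_exp 1]) (by positivity)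
  have hC : k.K ≤ 8 * b * k.c 2 * k.K ^ 2 := by
    have : 1 ≤ 8 * b * k.c 2 * k.K := by
      nlinarith [one_le_mul_of_one_le_of_one_le (one_le_mul_of_one_le_of_one_le b1 c1) K1]
    nlinarith
  refine ⟨8 * b * k.c 2 * k.K ^ 2, K1.trans hC, fun T E G _ _ _ _ ν Φ Lf x A hx hA =>
    ⟨fun τ S S' hS hT hm w => ?_, fun x' H hH τ hτ S hS => ?_⟩⟩
  · induction S', hS using Nat.le_induction with
    | base => simp
    | succ S' hS ih =>
      obtain ⟨h1, h2⟩ := ih (by omega) fun i h h' => hm i h (by omega)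
      have hy := hm (S' + 1) (by omega) le_rfl
      have e : A S' τ w = fderiv ℝ (Φ S') (x (S' + 1) τ) (A (S' + 1) τ w) := by
        rw [hA.tr.rel S' (by omega) τ]; rfl
      have e2 : Real.exp (k.Λ * ((S' + 1 : ℕ) - S)) = Real.exp (k.Λ * (S' - S)) * b := by
        rw [hb, ← Real.exp_add]; congr 1; push_cast; ring
      have h3 : ‖A S' τ w‖ ≤ b * ‖A (S' + 1) τ w‖ := by
        rw [e]
        exact ((fderiv ℝ (Φ S') _).le_opNorm _).trans
          (mul_le_mul_of_nonneg_right (hx.d1 S' (by omega) _ hy) (norm_nonneg _))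
      have h4 : ‖A (S' + 1) τ w‖ ≤ b * ‖A S' τ w‖ := by
        rw [e]; exact hx.low S' (by omega) _ hy _
      rw [e2]
      refine ⟨h1.trans ?_, h4.trans ?_⟩
      · rw [mul_assoc]; exact mul_le_mul_of_nonneg_left h3 (Real.exp_pos _).le
      · rw [mul_comm _ b, mul_assoc]; exact mul_le_mul_of_nonneg_left h2 (by positivity)
  · have D0 : 0 < k.D T := Real.exp_pos _
    have D1 : k.D T ≤ 1 := Real.exp_le_one_iff.2 (neg_nonpos.2 (mul_nonneg hk.c1.le (Nat.cast_nonneg _)))
    have e : Real.exp ((2 * k.Λ + 2) * S) = (q ^ S) ^ 2 := by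
      rw [hq, ← Real.exp_nat_mul, ← Real.exp_nat_mul]; congr 1; push_cast; ring
    rw [e]
    suffices h : ‖H S (x' S τ) - x S τ‖ ≤ 2 * k.K * q ^ S * k.D T ∧
      ‖H S (x' S τ) - x S τ - A S τ (1, 0)‖ ≤ 8 * b * k.c 2 * k.K ^ 2 * (q ^ S) ^ 2 * k.D T ^ 2 from h.2
    clear e
    induction S with
    | zero =>
      have h1 := hH.known τ hτ
      have h2 := (hA.known τ hτ).1
      have h3 := norm_add_le (H 0 (x' 0 τ) - x 0 τ - A 0 τ (1, 0)) (A 0 τ (1, 0))
      rw [sub_add_cancel] at h3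
      have h4 : k.K * k.D T ^ 2 ≤ k.K * k.D T :=
        mul_le_mul_of_nonneg_left (by nlinarith) (by linarith)
      refine ⟨by rw [pow_zero]; linarith, h1.trans ?_⟩
      rw [pow_zero, one_pow, mul_one]
      exact mul_le_mul_of_nonneg_right hC (by positivity)
    | succ S ih =>
      obtain ⟨h1, h2⟩ := ih (le_trans (by simp) hS)
      have hT : S + 1 ≤ T := by
        have : k.κ0 * T ≤ T := mul_le_of_le_one_left (Nat.cast_nonneg _) hk.κ1
        exact_mod_cast hS.trans this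
      have hy := hH.mem τ hτ _ hS
      have hz := (hx.known τ hτ _ hT).1
      have t := Kn.taylor (hx.sm S hT) (fun z hz => hx.dj S hT z hz 2 one_le_two) hz hy
      have ex : x S τ = Φ S (x (S + 1) τ) := by rw [hx.rel S hT]; rfl
      have eU : A S τ (1, 0) = fderiv ℝ (Φ S) (x (S + 1) τ) (A (S + 1) τ (1, 0)) := by
        rw [hA.tr.rel S hT τ]; rfl
      rw [← hH.rel τ hτ S hS, ← ex] at t
      have l1 := hx.low S hT _ hz (H (S + 1) (x' (S + 1) τ) - x (S + 1) τ)
      have l2 := hx.low S hT _ hz (H (S + 1) (x' (S + 1) τ) - x (S + 1) τ - A (S + 1) τ (1, 0))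
      have hR : ‖H (S + 1) (x' (S + 1) τ) - x (S + 1) τ‖ ≤ 2 * k.R :=
        (norm_sub_le _ _).trans (by linarith [mem_ball_zero_iff.1 hy, mem_ball_zero_iff.1 hz])
      rw [map_sub _ _ (A (S + 1) τ (1, 0)), ← eU] at l2
      generalize H (S + 1) (x' (S + 1) τ) - x (S + 1) τ = Δ' at *
      generalize fderiv ℝ (Φ S) (x (S + 1) τ) Δ' = LΔ at *
      generalize H S (x' S τ) - x S τ = Δ at *
      have n1 : ‖LΔ‖ ≤ ‖Δ‖ + ‖Δ - LΔ‖ := by
        simpa only [sub_sub_cancel] using norm_sub_le Δ (Δ - LΔ)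
      have n2 : ‖LΔ - A S τ (1, 0)‖ ≤ ‖Δ - A S τ (1, 0)‖ + ‖Δ - LΔ‖ := by
        simpa only [sub_sub_sub_cancel_left] using norm_sub_le (Δ - A S τ (1, 0)) (Δ - LΔ)
      have s1 : b * k.c 2 * ‖Δ'‖ ≤ 1 / 2 := by
        have := mul_le_mul_of_nonneg_left hR (show 0 ≤ b * k.c 2 by positivity)
        linarith [hk.small]
      have q0 : 0 ≤ k.K * q ^ S * k.D T := by positivity
      have r1 : ‖Δ'‖ ≤ 2 * k.K * q ^ (S + 1) * k.D T := by
        have a1 := mul_le_mul_of_nonneg_left (n1.trans (add_le_add h1 t)) (show 0 ≤ b by positivity)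
        have a2 := mul_le_mul_of_nonneg_right s1 (norm_nonneg Δ')
        have a3 := mul_le_mul_of_nonneg_right hqb q0
        rw [pow_succ]
        linarith
      refine ⟨r1, l2.trans ?_⟩
      have a1 := mul_le_mul_of_nonneg_left (n2.trans (add_le_add h2 t)) (show 0 ≤ b by positivity)
      have a2 := mul_le_mul_of_nonneg_left (mul_self_le_mul_self (norm_nonneg _) r1)
        (show 0 ≤ b * k.c 2 by positivity)
      have a3 : 2 * b ≤ q ^ 2 := by nlinarith
      have a4 := mul_le_mul_of_nonneg_right a3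
        (show 0 ≤ b * k.c 2 * k.K ^ 2 * (q ^ S) ^ 2 * k.D T ^ 2 by positivity)
      rw [pow_succ q S] at a2 ⊢
      linarith

end Crest.Agent.N221.NC
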