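import Crest.Agent.N221.NC.Defs

/-! Row 221, block NC: the Gram determinant and the polynomial projection (helper98, task 1083). -/

set_option autoImplicit false

open Matrix
open scoped ContDiff RealInnerProductSpace

noncomputable section

namespace Crest.Agent.N221.NC

namespace Gm

variable {F : Type} [NormedAddCommGroup F] [InnerProductSpace ℝ F] {k : ℕ}

def gE (v : Fin k → F) : ℝ := (gram ℝ v).det

def cc (v : Fin k → F) (u : F) : Fin k → ℝ := (gram ℝ v).adjugate *ᵥ fun j => ⟪v j, u⟫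

def QE (v : Fin k → F) (u : F) : F := gE v • u - ∑ i, cc v u i • v i

theorem gE_nonneg (v : Fin k → F) : 0 ≤ gE v := (posSemidef_gram ℝ v).det_nonneg

theorem gram_smul (l : ℝ) (v : Fin k → F) : gram ℝ (l • v) = l ^ 2 • gram ℝ v := by
  ext i j
  simp only [gram_apply, Pi.smul_apply, real_inner_smul_left, real_inner_smul_right,
    Matrix.smul_apply, smul_eq_mul]
  ring

theorem gE_smul (l : ℝ) (v : Fin k → F) : gE (l • v) = l ^ (2 * k) * gE v := by
  rw [gE, gram_smul, det_smul, Fintype.card_fin, ← pow_mul, gE]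

theorem cc_smul (l : ℝ) (v : Fin k → F) (u : F) (i : Fin k) :
    cc (l • v) (l • u) i = l ^ (2 * k) * cc v u i := by
  have e : (fun j => ⟪(l • v) j, l • u⟫) = l ^ 2 • fun j => ⟪v j, u⟫ := by
    funext j
    simp only [Pi.smul_apply, real_inner_smul_left, real_inner_smul_right, smul_eq_mul]
    ring
  rw [cc, gram_smul, adjugate_smul, e, smul_mulVec, mulVec_smul, smul_smul, ← pow_succ,
    Fintype.card_fin, Nat.sub_add_cancel i.pos, ← pow_mul]
  rfl

theorem QE_smul (l : ℝ) (v : Fin k → F) (u : F) :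
    QE (l • v) (l • u) = l ^ (2 * k + 1) • QE v u := by
  simp only [QE, gE_smul, cc_smul, Pi.smul_apply, smul_sub, Finset.smul_sum, smul_smul]
  congr 1
  · congr 1; ring
  · exact Finset.sum_congr rfl fun i _ => by congr 1; ring

theorem inner_QE (v : Fin k → F) (u : F) (j : Fin k) : ⟪v j, QE v u⟫ = 0 := by
  have e : gram ℝ v *ᵥ cc v u = gE v • fun j => ⟪v j, u⟫ := by
    rw [cc, mulVec_mulVec, mul_adjugate, smul_mulVec, one_mulVec, gE]
  have e1 := congrFun e j
  simp only [mulVec, dotProduct, gram_apply, Pi.smul_apply, smul_eq_mul] at e1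
  simp only [QE, inner_sub_right, inner_sum, real_inner_smul_right, ← e1, mul_comm, sub_self]

theorem norm_QE (v : Fin k → F) (u : F) (c : Fin k → ℝ) :
    ‖QE v u‖ ≤ gE v * ‖u - ∑ i, c i • v i‖ := by
  have z : ∀ d : Fin k → ℝ, ⟪∑ i, d i • v i, QE v u⟫ = 0 := fun d => by
    simp only [sum_inner, real_inner_smul_left, inner_QE, mul_zero, Finset.sum_const_zero]
  have e : ‖QE v u‖ * ‖QE v u‖ = gE v * ⟪u - ∑ i, c i • v i, QE v u⟫ := by
    rw [← real_inner_self_eq_norm_mul_norm, inner_sub_left, z, sub_zero]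
    nth_rw 1 [QE]
    rw [inner_sub_left, z, sub_zero, real_inner_smul_left]
  have g0 := gE_nonneg v
  rcases (norm_nonneg (QE v u)).eq_or_lt with h | h
  · rw [← h]; positivity
  · refine le_of_mul_le_mul_right ?_ h
    rw [e, mul_assoc]
    exact mul_le_mul_of_nonneg_left (real_inner_le_norm _ _) g0

theorem le_gE (v : Fin k → F) {m : ℝ} (hm : 0 ≤ m)
    (h : ∀ c : EuclideanSpace ℝ (Fin k), m * ‖c‖ ≤ ‖∑ i, c i • v i‖) : m ^ (2 * k) ≤ gE v := by
  have hA := isHermitian_gram ℝ v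
  rw [gE, hA.det_eq_prod_eigenvalues, pow_mul, ← Fin.prod_const]
  refine Finset.prod_le_prod (fun _ _ => sq_nonneg m) fun i _ => ?_
  have h1 := h (hA.eigenvectorBasis i)
  rw [hA.eigenvectorBasis.norm_eq_one, mul_one] at h1
  rw [hA.eigenvalues_eq, star_dotProduct_gram_mulVec, real_inner_self_eq_norm_sq]
  exact pow_le_pow_left₀ hm h1 2

variable {X : Type} [NormedAddCommGroup X] [NormedSpace ℝ X]

theorem cd_det {M : X → Matrix (Fin k) (Fin k) ℝ} (h : ∀ i j, ContDiff ℝ ∞ fun x => M x i j) :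
    ContDiff ℝ ∞ fun x => (M x).det := by
  simp only [det_apply']
  exact ContDiff.sum fun σ _ => contDiff_const.mul (contDiff_prod fun i _ => h _ _)

theorem cd_gE {v : X → Fin k → F} (h : ∀ i, ContDiff ℝ ∞ fun x => v x i) :
    ContDiff ℝ ∞ fun x => gE (v x) := cd_det fun i j => (h i).inner ℝ (h j)

theorem cd_QE {v : X → Fin k → F} {u : X → F} (h : ∀ i, ContDiff ℝ ∞ fun x => v x i)
    (hu : ContDiff ℝ ∞ u) : ContDiff ℝ ∞ fun x => QE (v x) (u x) := by
  refine ((cd_gE h).smul hu).sub (ContDiff.sum fun i _ => ContDiff.smul ?_ (h i))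
  simp only [cc, mulVec, dotProduct, adjugate_apply]
  refine ContDiff.sum fun j _ => (cd_det fun a b => ?_).mul ((h j).inner ℝ hu)
  simp only [updateRow_apply]
  split_ifs
  · exact contDiff_const
  · exact (h a).inner ℝ (h b)

end Gm

open Gm

theorem gramS : GramS := by
  intro E G _ _ _ _ _ _
  let e := toEuclidean (E := E)
  let e' := toEuclidean (E := G)
  let v : (G →L[ℝ] E) → Fin (Module.finrank ℝ G) → EuclideanSpace ℝ (Fin (Module.finrank ℝ E)) :=
    fun V i => e (V (e'.symm (EuclideanSpace.single i 1)))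
  have hv : ∀ V (c : EuclideanSpace ℝ (Fin (Module.finrank ℝ G))),
      ∑ i, c i • v V i = e (V (e'.symm c)) := fun V c => by
    simp only [v, ← map_smul, ← map_sum]
    congr 3
    simpa using (EuclideanSpace.basisFun _ ℝ).sum_repr c
  have sv : ∀ (l : ℝ) V, v (l • V) = l • v V := fun l V => by
    funext i
    simp only [v, _root_.smul_apply, map_smul, Pi.smul_apply]
  have cv : ∀ i, ContDiff ℝ ∞ fun V => v V i := fun i =>
    e.contDiff.comp (contDiff_id.clm_apply contDiff_const)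
  obtain ⟨a, a0, ha⟩ : ∃ a, 0 ≤ a ∧ ∀ x, ‖e x‖ ≤ a * ‖x‖ :=
    ⟨_, norm_nonneg _, e.toContinuousLinearMap.le_opNorm⟩
  obtain ⟨b, b0, hb⟩ : ∃ b, 0 ≤ b ∧ ∀ x, ‖e.symm x‖ ≤ b * ‖x‖ :=
    ⟨_, norm_nonneg _, e.symm.toContinuousLinearMap.le_opNorm⟩
  obtain ⟨d, d0, hd⟩ : ∃ d, 0 ≤ d ∧ ∀ x, ‖e' x‖ ≤ d * ‖x‖ :=
    ⟨_, norm_nonneg _, e'.toContinuousLinearMap.le_opNorm⟩
  have p1 : 0 < d * b + 1 := by positivity
  have p2 : 1 ≤ (d * b + 1) ^ (2 * Module.finrank ℝ G) :=
    one_le_pow₀ (le_add_of_nonneg_left (mul_nonneg d0 b0))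
  have p3 := mul_nonneg b0 a0
  refine ⟨fun V => gE (v V), fun z => e.symm (QE (v z.1) (e z.2)), 2 * Module.finrank ℝ G,
    b * a + (d * b + 1) ^ (2 * Module.finrank ℝ G), by linarith, cd_gE cv,
    e.symm.contDiff.comp (cd_QE (fun i => (cv i).comp contDiff_fst) (e.contDiff.comp contDiff_snd)),
    fun l V => ?_, fun l V U => ?_, fun V => gE_nonneg _, fun V U x => ?_, fun V U h => ?_,
    fun V μ hμ h => ?_⟩
  · simp only [sv, gE_smul]
  · simp only [sv, map_smul, QE_smul]
  · have h1 := norm_QE (v V) (e U) (e' x)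
    rw [hv, e'.symm_apply_apply, ← map_sub] at h1
    have g0 := gE_nonneg (v V)
    calc _ ≤ b * (gE (v V) * (a * ‖U - V x‖)) := (hb _).trans (mul_le_mul_of_nonneg_left
          (h1.trans (mul_le_mul_of_nonneg_left (ha _) g0)) b0)
      _ = b * a * gE (v V) * ‖U - V x‖ := by ring
      _ ≤ _ := by gcongr; linarith
  · refine ⟨(gE (v V))⁻¹ • e'.symm (WithLp.toLp 2 (cc (v V) (e U))), le_of_eq ?_⟩
    have h1 := hv V (WithLp.toLp 2 (cc (v V) (e U)))
    simp only at h h1 ⊢
    rw [QE, h1, ← map_smul e, ← map_sub, e.symm_apply_apply, ← norm_smul_of_nonneg h.le, smul_sub,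
      map_smul, smul_inv_smul₀ h.ne']
  · have h1 := le_gE (v V) (div_nonneg hμ p1.le) fun c => by
      rw [hv, div_mul_eq_mul_div, div_le_iff₀ p1]
      have k1 := hd (e'.symm c)
      have k2 := hb (e (V (e'.symm c)))
      rw [e'.apply_symm_apply] at k1
      rw [e.symm_apply_apply] at k2
      have k3 := mul_le_mul_of_nonneg_left ((h (e'.symm c)).trans k2) d0
      linarith [mul_le_mul_of_nonneg_left k1 hμ, norm_nonneg (e (V (e'.symm c)))]
    rw [div_pow, div_le_iff₀' (by positivity)] at h1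
    linarith [mul_nonneg p3 (gE_nonneg (v V))]

end Crest.Agent.N221.NC
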