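import Crest.Agent.N221.NC.Cmp
import Crest.Agent.N221.NC.Kn

/-! Row 221, block NC, leaf `Cmp'` (helper40): the difference of two nodes (no variation). -/

set_option autoImplicit false

open Set Metric
open scoped ContDiff Topology

noncomputable section

namespace Crest.Agent.N221.NC

open NB

namespace CmpP

/-- Remez for the difference `h (x' S ·) - x S ·` -/
theorem rem_diff (hA : ApS) {k : Cst} (hk : k.Ok) {s : ℝ} (hs : 0 < s) : ∃ M : ℝ, 1 ≤ M ∧ ∃ T0 : ℕ,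
    ∀ T, T0 ≤ T → ∀ (E : Type) [NormedAddCommGroup E] [NormedSpace ℝ E] [CompleteSpace E] (ν ν' : E → ℝ)
      (Φ Φ' : ℕ → E → E) (Lf Lf' : ℕ → Set E) (x x' : ℕ → ℝ → E) (h : E → E),
      Crv k T ν Φ Lf x → Crv k T ν' Φ' Lf' x' → ContDiffOn ℝ ∞ h (ball 0 k.R) →
      (∀ y ∈ ball (0 : E) k.R, ∀ j, 1 ≤ j → ‖iteratedFDeriv ℝ j h y‖ ≤ k.c j) →
      ∀ S : ℕ, s * T ≤ S → S ≤ T → ∀ η : ℝ, (∀ τ ∈ Icc (0 : ℝ) k.τ0, ‖h (x' S τ) - x S τ‖ ≤ η) →
      ∀ τ ∈ Icc (0 : ℝ) 1, ‖h (x' S τ) - x S τ‖ ≤ M * (η + k.D T ^ 2) := by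
  obtain ⟨μ, μ0, hA⟩ := hA k hk s hs
  obtain ⟨N, T0, hA⟩ := hA (2 * k.c1) k.c (by linarith [hk.c1])
  have M0 : 0 ≤ (6 / k.τ0) ^ N := by have := hk.τ0; positivity
  refine ⟨2 * (6 / k.τ0) ^ N + 2, by linarith, T0, fun T hT E _ _ _ ν ν' Φ Φ' Lf Lf' x x' h hx hx' h1 h2
    S hS hST η hη τ hτ => ?_⟩
  have tr : ∀ (Φ : ℕ → E → E) (x : ℕ → ℝ → E), Tr (F := ℝ) k T Φ x fun _ _ => 0 := fun _ _ =>
    ⟨fun _ _ _ => by simp, fun τ _ => ⟨contDiffAt_const, fun j => by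
      have := hk.d j
      rw [iteratedDeriv_const, ite_self, norm_zero]; positivity⟩⟩
  have e : Real.exp (-(2 * k.c1 * T)) = k.D T ^ 2 := by
    rw [Cst.D, sq, ← Real.exp_add]; congr 1; ring
  have a1 := ap_comp (hA T hT E ℝ ν Φ Lf x _ hx (tr _ _) S hS hST) (ContinuousLinearMap.fst ℝ _ _)
    (fun w => norm_fst_le w) contDiffOn_id fun y _ j hj => (jet_id y hj).trans (hk.c j)
  have a2 := ap_comp (hA T hT E ℝ ν' Φ' Lf' x' _ hx' (tr _ _) S hS hST) (ContinuousLinearMap.fst ℝ _ _)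
    (fun w => norm_fst_le w) h1 h2
  rw [e] at a1 a2
  have η0 : 0 ≤ η := (norm_nonneg _).trans (hη 0 ⟨le_rfl, hk.τ0.le⟩)
  have := mul_nonneg M0 η0
  exact ((a2.sub a1).remez hk.τ0 hk.τ1 hη τ hτ).trans (by linarith)

/-- one step back: the chart maps expand differences by at most `2 e^Λ` backwards -/
theorem step_le {E : Type} [NormedAddCommGroup E] [NormedSpace ℝ E] {k : Cst} (hk : k.Ok) {T S : ℕ}
    {ν : E → ℝ} {Φ : ℕ → E → E} {Lf : ℕ → Set E} {x : ℕ → ℝ → E} (hx : Crv k T ν Φ Lf x) (hS : S < T)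
    {y z : E} (hy : y ∈ ball (0 : E) k.R) (hz : z ∈ ball (0 : E) k.R) :
    ‖y - z‖ ≤ Real.exp (k.Λ + 1) * ‖Φ S y - Φ S z‖ := by
  have t := Kn.taylor (hx.sm S hS) (fun z hz => hx.dj S hS z hz 2 one_le_two) hz hy
  have l1 := hx.low S hS _ hz (y - z)
  have hR : ‖y - z‖ ≤ 2 * k.R :=
    (norm_sub_le _ _).trans (by linarith [mem_ball_zero_iff.1 hy, mem_ball_zero_iff.1 hz])
  have hq : 2 * Real.exp k.Λ ≤ Real.exp (k.Λ + 1) := by
    rw [Real.exp_add, mul_comm]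
    exact mul_le_mul_of_nonneg_left (by linarith [Real.add_one_le_exp 1]) (Real.exp_pos _).le
  have b0 := Real.exp_pos k.Λ
  have c1 := hk.c 2
  have sm := hk.small
  generalize Real.exp k.Λ = b at *
  generalize fderiv ℝ (Φ S) z (y - z) = L at *
  generalize Φ S y - Φ S z = Δ at *
  generalize y - z = Δ' at *
  have n1 : ‖L‖ ≤ ‖Δ‖ + ‖Δ - L‖ := by simpa only [sub_sub_cancel] using norm_sub_le Δ (Δ - L)
  have s1 : b * k.c 2 * ‖Δ'‖ ≤ 1 / 2 := by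
    have := mul_le_mul_of_nonneg_left hR (show 0 ≤ b * k.c 2 by positivity)
    linarith
  have a1 := mul_le_mul_of_nonneg_left (n1.trans (add_le_add le_rfl t)) b0.le
  have a2 := mul_le_mul_of_nonneg_right s1 (norm_nonneg Δ')
  have a3 := mul_le_mul_of_nonneg_right hq (norm_nonneg Δ)
  linarith

/-- growth of the difference of two orbits of the chain -/
theorem grow {E : Type} [NormedAddCommGroup E] [NormedSpace ℝ E] {k : Cst} (hk : k.Ok) {T : ℕ}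
    {ν : E → ℝ} {Φ : ℕ → E → E} {Lf : ℕ → Set E} {x : ℕ → ℝ → E} (hx : Crv k T ν Φ Lf x) {y z : ℕ → E}
    (S : ℕ) (hS : S ≤ T) (h : ∀ i < S, y (i + 1) ∈ ball (0 : E) k.R ∧ z (i + 1) ∈ ball (0 : E) k.R ∧
      y i = Φ i (y (i + 1)) ∧ z i = Φ i (z (i + 1))) :
    ‖y S - z S‖ ≤ Real.exp ((k.Λ + 1) * S) * ‖y 0 - z 0‖ := by
  induction S with
  | zero => simp
  | succ S ih =>
    obtain ⟨h1, h2, h3, h4⟩ := h S S.lt_succ_self
    have := step_le hk hx hS h1 h2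
    rw [← h3, ← h4] at this
    refine this.trans ((mul_le_mul_of_nonneg_left (ih (by omega) fun i hi => h i (by omega))
      (Real.exp_pos _).le).trans_eq ?_)
    rw [← mul_assoc, ← Real.exp_add]; congr 2; push_cast; ring

end CmpP

end Crest.Agent.N221.NC
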