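import Crest.Agent.N221.NC.AngF1
import Crest.Agent.N221.NC.CmpF

/-! Row 221, block NC (helper28): errors on the known part, no variation. -/

set_option autoImplicit false

open Set Metric
open scoped ContDiff Topology

noncomputable section

namespace Crest.Agent.N221.NC

lemma knG_num {b c K q Q D e e' v : ℝ} (b0 : 0 < b) (c0 : 0 ≤ c) (K0 : 0 ≤ K) (hq : 2 * b ≤ q)
    (Q0 : 0 ≤ Q) (he : e ≤ (K + 2 * b * c * K ^ 2) * Q * D ^ 2) (hv : v ≤ Q * q * (K * D) ^ 2)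
    (h : e' ≤ b * (e + c * v)) : e' ≤ (K + 2 * b * c * K ^ 2) * (Q * q) * D ^ 2 := by
  have q0 : 0 ≤ q := by linarith
  have M0 : 0 ≤ K + 2 * b * c * K ^ 2 := by positivity
  have h1 : 2 * b * ((K + 2 * b * c * K ^ 2) * Q * D ^ 2) ≤
      q * ((K + 2 * b * c * K ^ 2) * Q * D ^ 2) := by gcongr
  have h2 : b * (e + c * v) ≤ b * ((K + 2 * b * c * K ^ 2) * Q * D ^ 2 +
      c * (Q * q * (K * D) ^ 2)) := by gcongr
  have h3 : 0 ≤ K * (Q * q) * D ^ 2 := by positivity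
  linarith

open Real in
theorem knG : KnF := by
  intro k ok
  have Λ0 := ok.Λ
  have K1 := ok.K
  have c2 := ok.c 2
  have b0 := exp_pos k.Λ
  have p0 : 0 ≤ 2 * exp k.Λ * k.c 2 * k.K ^ 2 := by positivity
  refine ⟨k.K + 2 * exp k.Λ * k.c 2 * k.K ^ 2, by linarith, fun T E G _ _ _ _ ν Φ Lf x A hx hA =>
    ⟨fun τ S S' h h' hb w => AngP.tr_le hx hA τ h h' hb w, fun Φ' H Lf' x' hx' hL τ hτ => ?_⟩⟩
  have hτ1 : τ ∈ Icc (0 : ℝ) 1 := ⟨hτ.1, hτ.2.trans ok.τ1⟩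
  have D0 : 0 < k.D T := exp_pos _
  have hT : ∀ S : ℕ, (S : ℝ) ≤ k.κ0 * T → S ≤ T := fun S hS => by
    exact_mod_cast (hS.trans (mul_le_of_le_one_left (Nat.cast_nonneg T) ok.κ1) : (S : ℝ) ≤ T)
  have rel : ∀ S : ℕ, ((S + 1 : ℕ) : ℝ) ≤ k.κ0 * T →
      H S (x' S τ) = Φ S (H (S + 1) (x' (S + 1) τ)) := fun S hS =>
    hL.rel τ hτ1 S hS (hx'.known τ hτ _ (hT _ hS)).1
      (hx'.known τ hτ _ ((Nat.le_succ S).trans (hT _ hS))).1 (hL.mem τ hτ _ hS)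
  have gr : ∀ S : ℕ, (S : ℝ) ≤ k.κ0 * T →
      ‖H S (x' S τ) - x S τ‖ ≤ exp ((k.Λ + 1) * S) * (k.K * k.D T) := fun S hS => by
    refine (CmpP.grow ok hx (y := fun i => H i (x' i τ)) (z := fun i => x i τ) S (hT S hS)
      fun i hi => ?_).trans (mul_le_mul_of_nonneg_left (hL.known τ hτ).1 (exp_pos _).le)
    have h1 : ((i + 1 : ℕ) : ℝ) ≤ k.κ0 * T := le_trans (by exact_mod_cast hi) hS
    exact ⟨hL.mem τ hτ _ h1, (hx.known τ hτ _ (hT _ h1)).1, rel i h1,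
      by rw [hx.rel i (hT _ h1)]; rfl⟩
  obtain ⟨a, ha⟩ := (hL.known τ hτ).2
  refine fun S hS => ⟨(gr S hS).trans ?_, a, ?_⟩
  · have : 0 ≤ 2 * exp k.Λ * k.c 2 * k.K ^ 2 * exp ((k.Λ + 1) * S) * k.D T := by positivity
    linarith
  induction S with
  | zero =>
    have : 0 ≤ 2 * exp k.Λ * k.c 2 * k.K ^ 2 * k.D T ^ 2 := by positivity
    simp only [Nat.cast_zero, mul_zero, exp_zero, mul_one]
    linarith
  | succ S ih =>
    have hS' : S < T := hT _ hS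
    have ih := ih (le_trans (by exact_mod_cast Nat.le_succ S) hS)
    have hz : x (S + 1) τ ∈ ball (0 : E) k.R := (hx.known τ hτ _ hS').1
    have t := Kn.taylor (hx.sm S hS') (fun z hz => hx.dj S hS' z hz 2 one_le_two) hz
      (hL.mem τ hτ _ hS)
    have ex : x S τ = Φ S (x (S + 1) τ) := by rw [hx.rel S hS']; rfl
    have eA : A S τ a = fderiv ℝ (Φ S) (x (S + 1) τ) (A (S + 1) τ a) := by
      rw [hA.rel S hS' τ]; rfl
    rw [← rel S hS, ← ex] at t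
    have l2 := hx.low S hS' _ hz (H (S + 1) (x' (S + 1) τ) - x (S + 1) τ - A (S + 1) τ a)
    have g1 := gr _ hS
    have e : exp ((2 * k.Λ + 2) * (S + 1 : ℕ)) = exp ((2 * k.Λ + 2) * S) * exp (2 * k.Λ + 2) := by
      rw [← exp_add]; congr 1; push_cast; ring
    have e' : exp ((k.Λ + 1) * (S + 1 : ℕ)) ^ 2 = exp ((2 * k.Λ + 2) * (S + 1 : ℕ)) := by
      rw [← exp_nat_mul]; congr 1; push_cast; ring
    rw [e]
    refine knG_num (v := ‖H (S + 1) (x' (S + 1) τ) - x (S + 1) τ‖ ^ 2) b0 (by linarith) (by linarith)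
      ?_ (exp_pos _).le ih ?_ (l2.trans (mul_le_mul_of_nonneg_left ?_ b0.le))
    · rw [show 2 * k.Λ + 2 = (k.Λ + 2) + k.Λ by ring, exp_add]
      exact mul_le_mul_of_nonneg_right (by linarith [add_one_le_exp (k.Λ + 2)]) b0.le
    · rw [← e, ← e', ← mul_pow]; gcongr
    · rw [map_sub _ _ (A (S + 1) τ a), ← eA]
      generalize fderiv ℝ (Φ S) (x (S + 1) τ) (H (S + 1) (x' (S + 1) τ) - x (S + 1) τ) = L at t ⊢
      have := norm_sub_le_norm_sub_add_norm_sub L (H S (x' S τ) - x S τ) (A S τ a)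
      rw [norm_sub_rev L (H S (x' S τ) - x S τ)] at this
      linarith

end Crest.Agent.N221.NC
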