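import Crest.Agent.N221.NC.CoreF
import Crest.Agent.N221.NC.AngG
import Crest.Agent.N221.NC.KnG
import Crest.Agent.N221.NC.CmpG
import Crest.Agent.N221.NC.Esc
import Crest.Agent.N221.NC.Ap
import Crest.Agent.N221.NC.Gram
import Crest.Agent.N221.NC.Grid

/-! Row 221, block NC (helper28): the analytic core of no-branching is closed. -/

set_option autoImplicit false

namespace Crest.Agent.N221.NC

theorem core : CoreF :=
  coreF escS (cmpF (apS escS extS) knG)
    (angF (angF1 gramS gridS (apS escS extS) knG) (cmpF (apS escS extS) knG)) avgS

end Crest.Agent.N221.NC
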